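import Vale.Agent.P133.Generated

/-!
P133: weak pure infiniteness in element form and its first consequences.
-/

namespace Vale.Agent.P133

open scoped ComplexOrder

set_option linter.unusedSectionVars false

variable {C : Type*} [NonUnitalCStarAlgebra C] [PartialOrder C] [StarOrderedRing C]

/-- Every `n`-fold amplification of a positive element is properly infinite. -/
def WeaklyPurelyInfiniteWith (C : Type*) [NonUnitalCStarAlgebra C] [PartialOrder C] (n : ℕ) :
    Prop :=
  ∀ h : C, 0 ≤ h → ∀ ε : ℝ, 0 < ε → ∃ a : Fin n → Fin (2 * n) → C, ∀ k k',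
    ‖(∑ j, star (a j k) * h * a j k') - if k = k' then h else 0‖ < ε

/-- Weak pure infiniteness. -/
def WeaklyPurelyInfinite (C : Type*) [NonUnitalCStarAlgebra C] [PartialOrder C] : Prop :=
  ∃ n : ℕ, 1 ≤ n ∧ WeaklyPurelyInfiniteWith C n

/-- Any number of copies below `n` copies. -/
theorem WeaklyPurelyInfiniteWith.copies {n : ℕ} (hn : 1 ≤ n) (hC : WeaklyPurelyInfiniteWith C n)
    {h : C} (hh : 0 ≤ h) : ∀ (M : ℕ) {ε : ℝ}, 0 < ε → ∃ a : Fin n → Fin M → C, ∀ k k',
      ‖(∑ j, star (a j k) * h * a j k') - if k = k' then h else 0‖ < ε := by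
  intro M
  induction M with
  | zero => exact fun _ => ⟨fun _ => Fin.elim0, fun k => k.elim0⟩
  | succ M ih =>
    intro ε hε
    obtain ⟨b, hb⟩ := ih (half_pos hε)
    set K := 1 + ∑ j, ∑ k, ‖b j k‖ with hK
    have hs : 0 ≤ ∑ j, ∑ k, ‖b j k‖ :=
      Finset.sum_nonneg fun j _ => Finset.sum_nonneg fun k _ => norm_nonneg _
    have hK1 : 1 ≤ K := by rw [hK]; linarith
    have hbK : ∀ k, ∑ j, ‖b j k‖ ≤ K := fun k => by
      rw [hK, Finset.sum_comm]
      linarith [Finset.single_le_sum (f := fun k => ∑ j, ‖b j k‖)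
        (fun k _ => Finset.sum_nonneg fun j _ => norm_nonneg _) (Finset.mem_univ k)]
    obtain ⟨a, ha⟩ := hC h hh (ε / (2 * K ^ 2)) (by positivity)
    set η := ε / (2 * K ^ 2) with hη
    have hη0 : 0 < η := by positivity
    have hKη : K * K * η = ε / 2 := by rw [hη]; field_simp
    set i0 : Fin n → Fin (2 * n) := fun i => ⟨i, by omega⟩ with hi0
    set top : Fin (2 * n) := ⟨n, by omega⟩ with htop
    have hne : ∀ i, i0 i ≠ top := fun i e => by
      have := congrArg Fin.val e; simp [hi0, htop] at this; omega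
    refine ⟨fun j => Fin.lastCases (a j top) fun k => ∑ i, a j (i0 i) * b i k, fun k k' => ?_⟩
    set E : Fin (2 * n) → Fin (2 * n) → C :=
      fun p p' => (∑ j, star (a j p) * h * a j p') - if p = p' then h else 0 with hE
    have hEn : ∀ p p', ‖E p p'‖ < η := ha
    refine Fin.lastCases ?_ (fun k => ?_) k <;> refine Fin.lastCases ?_ (fun k' => ?_) k'
    · simp only [Fin.lastCases_last, if_true]
      have := hEn top top
      simp only [hE, if_true] at this
      have h2 : η ≤ K * K * η := le_mul_of_one_le_left hη0.le (one_le_mul_of_one_le_of_one_le hK1 hK1)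
      linarith
    · simp only [Fin.lastCases_last, Fin.lastCases_castSucc,
        if_neg (Fin.castSucc_lt_last k').ne', sub_zero]
      have e : ∑ j, star (a j top) * h * ∑ i, a j (i0 i) * b i k' =
          ∑ i, E top (i0 i) * b i k' := by
        simp only [hE, if_neg (hne _).symm, sub_zero, Finset.sum_mul, Finset.mul_sum, mul_assoc]
        exact Finset.sum_comm
      rw [e]
      refine lt_of_le_of_lt ((norm_sum_le _ _).trans (Finset.sum_le_sum fun i _ =>
        (norm_mul_le _ _).trans (mul_le_mul_of_nonneg_right (hEn _ _).le (norm_nonneg _)))) ?_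
      rw [← Finset.mul_sum]
      nlinarith [hbK k', mul_le_mul_of_nonneg_left (hbK k') hη0.le,
        mul_le_mul_of_nonneg_right hK1 (show 0 ≤ K * η by positivity)]
    · simp only [Fin.lastCases_last, Fin.lastCases_castSucc,
        if_neg (Fin.castSucc_lt_last k).ne, sub_zero]
      have e : ∑ j, star (∑ i, a j (i0 i) * b i k) * h * a j top =
          ∑ i, star (b i k) * E (i0 i) top := by
        simp only [hE, if_neg (hne _), sub_zero, star_sum, star_mul, Finset.sum_mul, Finset.mul_sum,
          mul_assoc]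
        exact Finset.sum_comm
      rw [e]
      refine lt_of_le_of_lt ((norm_sum_le _ _).trans (Finset.sum_le_sum fun i _ =>
        (norm_mul_le _ _).trans (mul_le_mul_of_nonneg_left (hEn _ _).le (norm_nonneg _)))) ?_
      simp only [norm_star]
      rw [← Finset.sum_mul]
      nlinarith [hbK k, mul_le_mul_of_nonneg_right (hbK k) hη0.le,
        mul_le_mul_of_nonneg_right hK1 (show 0 ≤ K * η by positivity)]
    · simp only [Fin.lastCases_castSucc, Fin.castSucc_inj]
      have e : (∑ j, star (∑ i, a j (i0 i) * b i k) * h * ∑ i', a j (i0 i') * b i' k') -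
          (if k = k' then h else 0) =
          (∑ i, ∑ i', star (b i k) * E (i0 i) (i0 i') * b i' k') +
            ((∑ i, star (b i k) * h * b i k') - if k = k' then h else 0) := by
        have e1 : ∀ i i', star (b i k) * E (i0 i) (i0 i') * b i' k' =
            (∑ j, star (a j (i0 i) * b i k) * h * (a j (i0 i') * b i' k')) -
              if i = i' then star (b i k) * h * b i' k' else 0 := fun i i' => by
          have : (i0 i = i0 i') = (i = i') := by simp [hi0, Fin.ext_iff]
          simp only [hE, this, mul_sub, sub_mul, Finset.mul_sum, Finset.sum_mul, star_mul,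
            mul_ite, ite_mul, mul_zero, zero_mul, mul_assoc]
        simp only [e1, Finset.sum_sub_distrib, Finset.sum_ite_eq, Finset.mem_univ, if_true]
        have e2 : (∑ j, star (∑ i, a j (i0 i) * b i k) * h * ∑ i', a j (i0 i') * b i' k') =
            ∑ i, ∑ i', ∑ j, star (a j (i0 i) * b i k) * h * (a j (i0 i') * b i' k') := by
          simp only [star_sum, Finset.sum_mul]
          rw [Finset.sum_comm]
          refine Finset.sum_congr rfl fun i _ => ?_
          simp only [Finset.mul_sum]
          exact Finset.sum_comm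
        rw [e2]; abel
      rw [e]
      refine lt_of_le_of_lt (norm_add_le _ _) ?_
      have h1 : ‖∑ i, ∑ i', star (b i k) * E (i0 i) (i0 i') * b i' k'‖ ≤ K * η * K := by
        refine (norm_sum_le _ _).trans ((Finset.sum_le_sum (g := fun i => ‖b i k‖ * η * K)
          fun i _ => ?_).trans ?_)
        · refine (norm_sum_le _ _).trans ((Finset.sum_le_sum (g := fun i' => ‖b i k‖ * η * ‖b i' k'‖)
            fun i' _ => ?_).trans ?_)
          · refine norm_mul₃_le.trans ?_
            rw [norm_star]
            exact mul_le_mul_of_nonneg_right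
              (mul_le_mul_of_nonneg_left (hEn _ _).le (norm_nonneg _)) (norm_nonneg _)
          · rw [← Finset.mul_sum]
            exact mul_le_mul_of_nonneg_left (hbK k') (by positivity)
        · rw [← Finset.sum_mul, ← Finset.sum_mul]
          exact mul_le_mul_of_nonneg_right (mul_le_mul_of_nonneg_right (hbK k) hη0.le) (by linarith)
      linarith [hb k k']

/-- A positive element of the closed ideal of `a` is below `n` copies of `a`. -/
theorem WeaklyPurelyInfiniteWith.exists_conj_of_mem {n : ℕ} (hn : 1 ≤ n)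
    (hC : WeaklyPurelyInfiniteWith C n) {a z : C} (ha : 0 ≤ a) (hz : 0 ≤ z) (h : z ∈ idealGen a)
    {ε : ℝ} (hε : 0 < ε) : ∃ r : Fin n → C, ‖(∑ j, star (r j) * a * r j) - z‖ < ε := by
  set v := CFC.sqrt z with hv
  have hvs : star v = v := (IsSelfAdjoint.of_nonneg (CFC.sqrt_nonneg z)).star_eq
  have hvv : star v * v = z := by rw [hvs, hv, CFC.sqrt_mul_sqrt_self z hz]
  have hvmem := sqrt_mem_idealGen hz h
  set τ := min 1 (ε / (4 * (2 * ‖v‖ + 1))) with hτ
  have hτ0 : 0 < τ := lt_min one_pos (by positivity)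
  obtain ⟨e, he, hev⟩ := Metric.mem_closure_iff.1 hvmem τ hτ0
  rw [dist_eq_norm] at hev
  obtain ⟨M, c, q, hc, hle⟩ := exists_le_sum_of_mem_span ha he
  set S := ∑ i, star (q i) * a * q i with hS
  have hS0 : 0 ≤ S := Finset.sum_nonneg fun i _ => star_left_conjugate_nonneg ha (q i)
  obtain ⟨w, hw⟩ := exists_conj_of_le (star_mul_self_nonneg e) hS0 hc hle
    (show 0 < ε / 4 by linarith)
  set K := ∑ i, ∑ j, ‖q i‖ * ‖q j‖ with hK
  have hK0 : 0 ≤ K := Finset.sum_nonneg fun i _ => Finset.sum_nonneg fun j _ => by positivity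
  set μ := ε / (4 * (K + 1) * (‖w‖ ^ 2 + 1)) with hμ
  obtain ⟨p, hp⟩ := hC.copies hn ha M (show 0 < μ by positivity)
  refine ⟨fun j => (∑ i, p j i * q i) * w, ?_⟩
  set X := ∑ j, star (∑ i, p j i * q i) * a * ∑ i, p j i * q i with hX
  have hSr : X - S = ∑ i, ∑ i', star (q i) *
      ((∑ j, star (p j i) * a * p j i') - if i = i' then a else 0) * q i' := by
    have e2 : X = ∑ i, ∑ i', star (q i) * (∑ j, star (p j i) * a * p j i') * q i' := by
      simp only [hX, star_sum, star_mul, Finset.sum_mul, Finset.mul_sum, mul_assoc]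
      rw [Finset.sum_comm]
      exact (Finset.sum_congr rfl fun i _ => Finset.sum_comm).trans Finset.sum_comm
    rw [e2, hS, ← Finset.sum_sub_distrib]
    refine Finset.sum_congr rfl fun i _ => ?_
    simp only [mul_sub, sub_mul, Finset.sum_sub_distrib, mul_ite, ite_mul, mul_zero, zero_mul,
      Finset.sum_ite_eq, Finset.mem_univ, if_true]
  have hSn : ‖X - S‖ ≤ K * μ := by
    rw [hSr, hK, Finset.sum_mul]
    refine (norm_sum_le _ _).trans (Finset.sum_le_sum fun i _ => ?_)
    rw [Finset.sum_mul]
    refine (norm_sum_le _ _).trans (Finset.sum_le_sum fun j _ => (norm_mul₃_le).trans ?_)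
    rw [norm_star]
    calc ‖q i‖ * ‖(∑ l, star (p l i) * a * p l j) - if i = j then a else 0‖ * ‖q j‖
        = ‖q i‖ * ‖q j‖ * ‖(∑ l, star (p l i) * a * p l j) - if i = j then a else 0‖ := by ring
      _ ≤ _ := mul_le_mul_of_nonneg_left (hp i j).le (by positivity)
  have hez : ‖star e * e - z‖ ≤ ε / 4 := by
    rw [← hvv, show star e * e - star v * v = star (e - v) * e + star v * (e - v) by
      simp only [star_sub, sub_mul, mul_sub]; abel]
    have hn' : ‖e‖ ≤ ‖v‖ + 1 := by
      have := norm_sub_norm_le e v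
      rw [norm_sub_rev] at hev
      linarith [min_le_left 1 (ε / (4 * (2 * ‖v‖ + 1)))]
    calc _ ≤ τ * (‖v‖ + 1) + ‖v‖ * τ := by
          refine (norm_add_le _ _).trans (add_le_add ((norm_mul_le _ _).trans ?_)
            ((norm_mul_le _ _).trans ?_))
          · rw [norm_star, norm_sub_rev]
            exact mul_le_mul hev.le hn' (norm_nonneg _) hτ0.le
          · rw [norm_star, norm_sub_rev]
            exact mul_le_mul_of_nonneg_left hev.le (norm_nonneg _)
      _ = τ * (2 * ‖v‖ + 1) := by ring
      _ ≤ ε / (4 * (2 * ‖v‖ + 1)) * (2 * ‖v‖ + 1) :=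
          mul_le_mul_of_nonneg_right (min_le_right _ _) (by positivity)
      _ = ε / 4 := by field_simp
  have hb : ‖w‖ ^ 2 * (K * μ) ≤ ε / 4 := by
    rw [show ‖w‖ ^ 2 * (K * μ) =
      ε / 4 * ((K / (K + 1)) * (‖w‖ ^ 2 / (‖w‖ ^ 2 + 1))) by rw [hμ]; field_simp]
    refine mul_le_of_le_one_right (by linarith) (mul_le_one₀ ?_ (by positivity) ?_) <;>
      rw [div_le_one (by positivity)] <;> linarith
  have hdec : (∑ j, star ((∑ i, p j i * q i) * w) * a * ((∑ i, p j i * q i) * w)) - z =
      star w * (X - S) * w + (star w * S * w - star e * e) + (star e * e - z) := by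
    have : (∑ j, star ((∑ i, p j i * q i) * w) * a * ((∑ i, p j i * q i) * w)) =
        star w * X * w := by
      rw [hX, Finset.mul_sum, Finset.sum_mul]
      exact Finset.sum_congr rfl fun j _ => by simp only [star_mul, mul_assoc]
    rw [this, mul_sub, sub_mul]
    abel
  rw [hdec]
  calc _ ≤ ‖star w * (X - S) * w‖ + ‖star w * S * w - star e * e‖ + ‖star e * e - z‖ := norm_add₃_le
    _ < ε := by
        have h1 := norm_mul₃_le (a := star w) (b := X - S) (c := w)
        rw [norm_star] at h1
        have := mul_le_mul_of_nonneg_left hSn (sq_nonneg ‖w‖)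
        nlinarith

/-- The bounded form. -/
theorem WeaklyPurelyInfiniteWith.exists_bounded {n : ℕ} (hn : 1 ≤ n)
    (hC : WeaklyPurelyInfiniteWith C n) {a z : C} (ha : 0 ≤ a) (hz : 0 ≤ z) {c : ℝ} (hc : 0 < c)
    (h : z ∈ idealGen (cut c a)) {ε : ℝ} (hε : 0 < ε) :
    ∃ r : Fin n → C, ‖(∑ j, star (r j) * a * r j) - z‖ < ε ∧
      ∀ j, ‖r j‖ ^ 2 ≤ (‖z‖ + ε) / c := by
  obtain ⟨r, hr⟩ := hC.exists_conj_of_mem hn (cut_nonneg c a) hz h hε
  set g : ℝ → ℝ := fun t => √(max (t - c) 0 / max t c) with hg
  have hmax : ∀ t : ℝ, max t c ≠ 0 := fun t => (lt_max_of_lt_right hc).ne'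
  have hgc : Continuous g :=
    Real.continuous_sqrt.comp (Continuous.div (by fun_prop) (by fun_prop) hmax)
  have hg0 : g 0 = 0 := by simp [hg, max_eq_right (neg_nonpos.2 hc.le)]
  set G := cfcₙ g a with hG
  have hGs : star G = G := (cfcₙ_predicate g a : IsSelfAdjoint G).star_eq
  have hGaG : G * a * G = cut c a := by
    rw [hG, cut, cfcₙ_conj ha hgc hg0]
    refine cfcₙ_congr fun t ht => ?_
    simp only [hg]
    rw [mul_comm (√_) t, mul_assoc, Real.mul_self_sqrt (by positivity)]
    rcases le_total t c with h1 | h1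
    · rw [max_eq_right (show t - c ≤ 0 by linarith)]; simp
    · rw [max_eq_left h1]
      exact mul_div_cancel₀ _ (show t ≠ 0 by linarith)
  have hG2 : G * G ≤ (1 / c) • cut c a := by
    have hcc : Continuous fun t : ℝ => max (t - c) 0 := by fun_prop
    have hcut0 : max ((0 : ℝ) - c) 0 = 0 := max_eq_right (by linarith)
    rw [hG, cut, ← cfcₙ_mul g g a hgc.continuousOn hg0 hgc.continuousOn hg0,
      ← cfcₙ_smul (1 / c) (fun t : ℝ => max (t - c) 0) a hcc.continuousOn hcut0]
    refine cfcₙ_mono (fun t _ => ?_) (hgc.mul hgc).continuousOn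
      (hcc.const_smul (1 / c)).continuousOn (by simp [hg0]) (by simp [hc.le])
    simp only [hg, smul_eq_mul]
    rw [Real.mul_self_sqrt (by positivity), div_mul_eq_mul_div, one_mul]
    exact div_le_div_of_nonneg_left (le_max_right _ _) hc (le_max_right _ _)
  have hpos : ∀ j, 0 ≤ star (r j) * cut c a * r j :=
    fun j => star_left_conjugate_nonneg (cut_nonneg c a) _
  refine ⟨fun j => G * r j, ?_, fun j => ?_⟩
  · rw [show (∑ j, star (G * r j) * a * (G * r j)) = ∑ j, star (r j) * cut c a * r j from
      Finset.sum_congr rfl fun j _ => by rw [← hGaG, star_mul, hGs]; simp only [mul_assoc]]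
    exact hr
  · rw [sq, ← CStarRing.norm_star_mul_self, star_mul, hGs,
      show star (r j) * G * (G * r j) = star (r j) * (G * G) * r j by simp only [mul_assoc]]
    refine (CStarAlgebra.norm_le_norm_of_nonneg_of_le
      (star_left_conjugate_nonneg ((IsSelfAdjoint.of_nonneg (cfcₙ_nonneg
        fun t _ => Real.sqrt_nonneg _)).mul_self_nonneg) _)
      (star_left_conjugate_le_conjugate hG2 (r j))).trans ?_
    rw [mul_smul_comm, smul_mul_assoc, norm_smul, Real.norm_of_nonneg (by positivity),
      div_mul_eq_mul_div, one_mul]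
    refine div_le_div_of_nonneg_right ?_ hc.le
    have h1 := CStarAlgebra.norm_le_norm_of_nonneg_of_le (hpos j)
      (Finset.single_le_sum (f := fun j => star (r j) * cut c a * r j) (fun i _ => hpos i)
        (Finset.mem_univ j))
    have := norm_sub_norm_le (∑ j, star (r j) * cut c a * r j) z
    linarith

end Vale.Agent.P133
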