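import Vale.Agent.P133.IdealNorm
import Mathlib.Analysis.CStarAlgebra.CStarMatrix

/-!
P133: matrices over the algebra and the ideals they get from ideals of the algebra.
-/

namespace Vale.Agent.P133

open scoped ComplexOrder

set_option linter.unusedSectionVars false

variable {C : Type*} [NonUnitalCStarAlgebra C] [PartialOrder C] [StarOrderedRing C] {n : ℕ}

theorem exists_sqrt {a : C} (ha : 0 ≤ a) : ∃ s : C, star s = s ∧ s * s = a :=
  ⟨CFC.sqrt a, (IsSelfAdjoint.of_nonneg (CFC.sqrt_nonneg a)).star_eq, CFC.sqrt_mul_sqrt_self a ha⟩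

/-- The matrix with the single entry `x` at `(i, j)`. -/
def sng (i j : Fin n) (x : C) : CStarMatrix (Fin n) (Fin n) C :=
  CStarMatrix.ofMatrix fun a b => if a = i ∧ b = j then x else 0

theorem sng_apply (i j : Fin n) (x : C) (a b : Fin n) :
    sng i j x a b = if a = i ∧ b = j then x else 0 := rfl

theorem sng_mul_sng (i j k l : Fin n) (x y : C) :
    sng i j x * sng k l y = if j = k then sng i l (x * y) else 0 := by
  ext a b
  simp only [CStarMatrix.mul_apply, sng_apply]
  by_cases h : j = k
  · subst h
    rw [if_pos rfl, Finset.sum_eq_single j]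
    · simp only [sng_apply, and_true, true_and]
      split_ifs <;> simp_all
    · intro c _ hc; simp [hc]
    · simp
  · rw [if_neg h]
    refine Finset.sum_eq_zero fun c _ => ?_
    split_ifs <;> simp_all

theorem star_sng (i j : Fin n) (x : C) : star (sng i j x) = sng j i (star x) := by
  ext a b
  rw [CStarMatrix.star_apply, sng_apply, sng_apply]
  simp only [and_comm (a := b = i)]
  split_ifs <;> simp

/-- The corner inclusion. -/
def cornerHom (i : Fin n) : C →⋆ₙₐ[ℂ] CStarMatrix (Fin n) (Fin n) C where
  toFun := sng i i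
  map_smul' c x := by
    ext a b
    simp only [MonoidHom.id_apply, CStarMatrix.smul_apply, sng_apply]
    split_ifs <;> simp
  map_zero' := by ext a b; simp [sng_apply]
  map_add' x y := by
    ext a b
    rw [CStarMatrix.add_apply, sng_apply, sng_apply, sng_apply]
    split_ifs <;> simp
  map_mul' x y := by rw [sng_mul_sng, if_pos rfl]
  map_star' x := (star_sng i i x).symm

theorem norm_sng_le (i j : Fin n) (x : C) : ‖sng i j x‖ ≤ ‖x‖ := by
  have h : ‖star (sng i j x) * sng i j x‖ ≤ ‖star x * x‖ := by
    rw [star_sng, sng_mul_sng, if_pos rfl]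
    exact NonUnitalStarAlgHom.norm_apply_le (cornerHom j) _
  rw [CStarRing.norm_star_mul_self, CStarRing.norm_star_mul_self] at h
  nlinarith [norm_nonneg x, norm_nonneg (sng i j x)]

theorem eq_sum_sng (M : CStarMatrix (Fin n) (Fin n) C) : M = ∑ i, ∑ j, sng i j (M i j) := by
  have hsum : ∀ {ι : Type} (s : Finset ι) (f : ι → CStarMatrix (Fin n) (Fin n) C) (a b : Fin n),
      (∑ i ∈ s, f i) a b = ∑ i ∈ s, f i a b := fun s f a b => by
    classical
    induction s using Finset.induction_on with
    | empty => simp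
    | insert c s hc ih => rw [Finset.sum_insert hc, Finset.sum_insert hc, CStarMatrix.add_apply, ih]
  ext a b
  rw [hsum]
  simp only [hsum, sng_apply]
  rw [Finset.sum_eq_single a, Finset.sum_eq_single b] <;> simp +contextual [eq_comm]

theorem norm_le_sum_entries (M : CStarMatrix (Fin n) (Fin n) C) :
    ‖M‖ ≤ ∑ i, ∑ j, ‖M i j‖ := by
  conv_lhs => rw [eq_sum_sng M]
  exact (norm_sum_le _ _).trans (Finset.sum_le_sum fun i _ =>
    (norm_sum_le _ _).trans (Finset.sum_le_sum fun j _ => norm_sng_le _ _ _))

theorem sum_apply' {ι : Type*} (s : Finset ι) (f : ι → CStarMatrix (Fin n) (Fin n) C)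
    (a b : Fin n) : (∑ i ∈ s, f i) a b = ∑ i ∈ s, f i a b := by
  classical
  induction s using Finset.induction_on with
  | empty => simp
  | insert c s hc ih => rw [Finset.sum_insert hc, Finset.sum_insert hc, CStarMatrix.add_apply, ih]

/-- The matrices with entries in `J`. -/
def matIdeal (n : ℕ) (J : Submodule ℂ C) : Submodule ℂ (CStarMatrix (Fin n) (Fin n) C) where
  carrier := {M | ∀ i j, M i j ∈ J}
  add_mem' hM hN i j := by rw [CStarMatrix.add_apply]; exact add_mem (hM i j) (hN i j)
  zero_mem' i j := by simp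
  smul_mem' c M hM i j := by rw [CStarMatrix.smul_apply]; exact J.smul_mem c (hM i j)

theorem isStarIdeal_matIdeal {J : Submodule ℂ C} (hJ : IsStarIdeal J) :
    IsStarIdeal (matIdeal n J) where
  closed := by
    refine isClosed_of_closure_subset fun M hM i j => ?_
    refine hJ.closed.closure_subset (Metric.mem_closure_iff.2 fun ε hε => ?_)
    obtain ⟨N, hN, hd⟩ := Metric.mem_closure_iff.1 hM ε hε
    refine ⟨N i j, hN i j, lt_of_le_of_lt ?_ hd⟩
    rw [dist_eq_norm, dist_eq_norm, ← CStarMatrix.sub_apply]
    exact CStarMatrix.norm_entry_le_norm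
  mul_left u x hx i j := by
    rw [CStarMatrix.mul_apply]
    exact sum_mem fun k _ => hJ.mul_left _ _ (hx k j)
  mul_right u x hx i j := by
    rw [CStarMatrix.mul_apply]
    exact sum_mem fun k _ => hJ.mul_right _ _ (hx i k)
  star_mem x hx i j := by rw [CStarMatrix.star_apply]; exact hJ.star_mem _ (hx j i)

theorem qn_entry_le (J : Submodule ℂ C) (M : CStarMatrix (Fin n) (Fin n) C) (i j : Fin n) :
    qn J (M i j) ≤ qn (matIdeal n J) M := by
  refine le_of_forall_pos_le_add fun δ hδ => ?_
  obtain ⟨N, hN, hd⟩ := exists_near (J := matIdeal n J) M (lt_add_of_pos_right _ hδ)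
  refine (qn_le_norm_sub (hN i j)).trans ?_
  rw [← CStarMatrix.sub_apply]
  exact CStarMatrix.norm_entry_le_norm.trans hd.le

theorem qn_mat_le_sum (J : Submodule ℂ C) (M : CStarMatrix (Fin n) (Fin n) C) :
    qn (matIdeal n J) M ≤ ∑ i, ∑ j, qn J (M i j) := by
  refine le_of_forall_pos_le_add fun δ hδ => ?_
  set δ' := δ / ((n : ℝ) ^ 2 + 1) with hδ'
  have hδ0 : 0 < δ' := by positivity
  choose N hN hd using fun i j =>
    exists_near (J := J) (M i j) (lt_add_of_pos_right (qn J (M i j)) hδ0)
  refine (qn_le_norm_sub (J := matIdeal n J) (j := CStarMatrix.ofMatrix N) fun i j => hN i j).trans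
    ((norm_le_sum_entries _).trans ?_)
  refine (Finset.sum_le_sum (g := fun i => ∑ j, (qn J (M i j) + δ')) fun i _ =>
    Finset.sum_le_sum fun j _ => by rw [CStarMatrix.sub_apply]; exact (hd i j).le).trans ?_
  simp only [Finset.sum_add_distrib, Finset.sum_const, Finset.card_univ, Fintype.card_fin,
    nsmul_eq_mul]
  have : (n : ℝ) * ((n : ℝ) * δ') ≤ δ := by
    rw [hδ', ← mul_assoc, ← sq, mul_div_assoc', div_le_iff₀ (by positivity)]
    linarith
  linarith

/-- For a positive matrix every entry is controlled by the sum of the diagonal. -/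
theorem qn_entry_le_trace {J : Submodule ℂ C} (hJ : IsStarIdeal J)
    {M : CStarMatrix (Fin n) (Fin n) C} (hM : 0 ≤ M) (i j : Fin n) :
    qn J (M i j) ≤ n * qn J (∑ k, M k k) := by
  obtain ⟨S, hSs, hSS⟩ := exists_sqrt hM
  have hsym : ∀ a b, S b a = star (S a b) := fun a b => by
    conv_lhs => rw [← hSs]
    rw [CStarMatrix.star_apply]
  have hd : ∀ k, M k k = ∑ l, S k l * star (S k l) := fun k => by
    rw [← hSS, CStarMatrix.mul_apply]
    exact Finset.sum_congr rfl fun l _ => by rw [hsym k l]
  have hd0 : ∀ k, 0 ≤ M k k := fun k => by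
    rw [hd]; exact Finset.sum_nonneg fun l _ => mul_star_self_nonneg _
  have hrow : ∀ k l, qn J (S k l) ^ 2 ≤ qn J (∑ k, M k k) := fun k l => by
    rw [← qn_mul_star_self hJ]
    refine qn_le_of_le hJ (mul_star_self_nonneg _) (le_trans ?_
      (Finset.single_le_sum (f := fun k => M k k) (fun k _ => hd0 k) (Finset.mem_univ k)))
    rw [hd k]
    exact Finset.single_le_sum (f := fun l => S k l * star (S k l))
      (fun l _ => mul_star_self_nonneg _) (Finset.mem_univ l)
  set t := qn J (∑ k, M k k)
  rw [← hSS, CStarMatrix.mul_apply]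
  have hsum : ∀ s : Finset (Fin n), qn J (∑ l ∈ s, S i l * S l j) ≤ s.card * t := fun s => by
    classical
    induction s using Finset.induction_on with
    | empty => simpa using qn_le_norm (J := J) (0 : C)
    | insert a s ha ih =>
      rw [Finset.sum_insert ha, Finset.card_insert_of_notMem ha]
      push_cast
      have h1 := qn_mul_le hJ (S i a) (S a j)
      have h2 : qn J (S i a) * qn J (S a j) ≤ t := by
        nlinarith [hrow i a, hrow a j, sq_nonneg (qn J (S i a) - qn J (S a j))]
      linarith [qn_add_le (J := J) (S i a * S a j) (∑ l ∈ s, S i l * S l j)]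
  simpa using hsum Finset.univ

end Vale.Agent.P133
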