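import Vale.Agent.P133.W.Coloured
import Vale.Agent.P133.W.Copies
import Vale.Agent.P133.W.Mat
import Vale.Agent.P133.Dim.Main

/-!
P133: two almost orthogonal full elements in a weakly purely infinite algebra of finite
covering dimension.
-/

namespace Vale.Agent.P133

open scoped ComplexOrder

set_option linter.unusedSectionVars false

variable {C : Type*} [NonUnitalCStarAlgebra C] [PartialOrder C] [StarOrderedRing C]

theorem norm_sum_orth_le {ι : Type*} [Fintype ι] [DecidableEq ι] (T : ι → C) {B β e : ℝ}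
    (hB : ∀ i, ‖star (T i) * T i‖ ≤ B) (hB0 : 0 ≤ B) (hβ : ∀ i, ‖T i‖ ≤ β)
    (he0 : 0 ≤ e) (he : ∀ i j, i ≠ j → ‖star (T i) * T j‖ ≤ e)
    (hsmall : (Fintype.card ι : ℝ) ^ 2 * (β ^ 2 * e) ≤ 1 / 4) :
    ‖∑ i, T i * star (T i)‖ ≤ B + 1 / 2 := by
  set X := ∑ i, T i * star (T i) with hX
  have hX0 : 0 ≤ X := Finset.sum_nonneg fun i _ => mul_star_self_nonneg _
  set D := ∑ i, T i * (star (T i) * T i) * star (T i) with hD
  have hD0 : 0 ≤ D := Finset.sum_nonneg fun i _ =>
    star_right_conjugate_nonneg (star_mul_self_nonneg _) _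
  have hDX : D ≤ B • X := by
    rw [hX, Finset.smul_sum]
    refine Finset.sum_le_sum fun i _ => ?_
    have h1 := CStarAlgebra.star_left_conjugate_le_norm_smul (a := star (T i))
      (b := star (T i) * T i) (IsSelfAdjoint.star_mul_self _)
    rw [star_star] at h1
    exact h1.trans (smul_le_smul_of_nonneg_right (hB i) (mul_star_self_nonneg _))
  have hXX : X * X - D = ∑ i, ∑ j, if i = j then 0 else T i * (star (T i) * T j) * star (T j) := by
    rw [hX, hD, Finset.sum_mul_sum, ← Finset.sum_sub_distrib]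
    refine Finset.sum_congr rfl fun i _ => ?_
    rw [← Finset.sum_erase_add Finset.univ (fun j => T i * star (T i) * (T j * star (T j)))
      (Finset.mem_univ i), ← Finset.sum_erase_add Finset.univ
      (fun j => if i = j then 0 else T i * (star (T i) * T j) * star (T j)) (Finset.mem_univ i)]
    simp only [if_true, add_zero, mul_assoc, add_sub_cancel_right]
    exact Finset.sum_congr rfl fun j hj => (if_neg (Finset.ne_of_mem_erase hj).symm).symm
  have hE : ‖X * X - D‖ ≤ 1 / 4 := by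
    rw [hXX]
    refine (norm_sum_le _ _).trans ?_
    refine (Finset.sum_le_sum (g := fun _ => (Fintype.card ι : ℝ) * (β ^ 2 * e)) fun i _ =>
      (norm_sum_le _ _).trans ((Finset.sum_le_sum (g := fun _ => β ^ 2 * e) fun j _ => ?_).trans
        (by simp))).trans (le_of_eq_of_le (by simp; ring) hsmall)
    split_ifs with h
    · rw [norm_zero]; positivity
    · refine norm_mul₃_le.trans ?_
      rw [norm_star]
      have hβ0 : 0 ≤ β := (norm_nonneg _).trans (hβ i)
      calc ‖T i‖ * ‖star (T i) * T j‖ * ‖T j‖ ≤ β * e * β :=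
            mul_le_mul (mul_le_mul (hβ i) (he i j h) (norm_nonneg _) hβ0) (hβ j) (norm_nonneg _)
              (by positivity)
        _ = β ^ 2 * e := by ring
  have hsq : ‖X‖ * ‖X‖ = ‖X * X‖ := by
    have := CStarRing.norm_star_mul_self (x := X)
    rw [(IsSelfAdjoint.of_nonneg hX0).star_eq] at this
    exact this.symm
  have h3 := norm_sub_norm_le (X * X) D
  have h4 := CStarAlgebra.norm_le_norm_of_nonneg_of_le hD0 hDX
  rw [norm_smul, Real.norm_of_nonneg hB0] at h4
  by_contra hcon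
  rw [not_le] at hcon
  nlinarith [mul_nonneg hB0 (norm_nonneg X)]

/-- The bound of the thin element. -/
def tB (m : ℕ) : ℝ := 33 * ((m : ℝ) + 1) ^ 2

set_option maxHeartbeats 1000000 in
/-- The bounds of one colour. -/
theorem colour_bound {ι : Type*} [Fintype ι] [DecidableEq ι] {x : C} (hxs : star x = x)
    (g k : ι → C) {N : ℕ} (v : Fin N → C) {R Q ξ : ℝ} (hR1 : 1 ≤ R) (hξ0 : 0 < ξ)
    (hQ : Q = (Fintype.card ι : ℝ) + 1)
    (hξ1 : 16 * Q ^ 2 * ((N : ℝ) + 1) * R ^ 5 * ξ = 1)
    (hxR : ‖x‖ ≤ R) (hkR : ∀ z, ‖k z‖ ≤ R) (hvR : ∀ i, ‖v i‖ ≤ R) (hg1 : ∀ z, ‖g z‖ ≤ 1)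
    (hgo' : ∀ z w, z ≠ w → ‖star (g z) * g w‖ ≤ ξ)
    (hgc : ∀ z, ‖x * g z - g z * x‖ ≤ ξ ∧ ∀ i, ‖star (v i) * g z - g z * star (v i)‖ ≤ ξ)
    (hk1 : ∀ z, ‖x * k z‖ ≤ 4)
    (hk2 : ∀ z, ‖∑ i, star (v i) * ((x * k z) * star (x * k z)) * v i‖ ≤ 16) :
    ‖∑ z, (x * g z * k z) * star (x * g z * k z)‖ ≤ 33 ∧
      ‖∑ z, ∑ i, star (v i) * ((x * g z * k z) * star (x * g z * k z)) * v i‖ ≤ 33 := by
  classical
  have hR0 : 0 ≤ R := by linarith
  have hQ1 : 1 ≤ Q := by rw [hQ]; exact le_add_of_nonneg_left (Nat.cast_nonneg _)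
  have hgo : ‖∑ z, g z * star (g z)‖ ≤ 3 / 2 := by
    refine (norm_sum_orth_le g (B := 1) (β := 1) (e := ξ) (fun z => ?_) zero_le_one hg1 hξ0.le
      hgo' ?_).trans (by norm_num)
    · refine (norm_mul_le _ _).trans (mul_le_one₀ ?_ (norm_nonneg _) (hg1 z))
      rw [norm_star]; exact hg1 z
    · have h1 : ((Fintype.card ι : ℝ)) ^ 2 ≤ Q ^ 2 :=
        pow_le_pow_left₀ (Nat.cast_nonneg _) (by rw [hQ]; linarith) 2
      have h2 : (1 : ℝ) ≤ ((N : ℝ) + 1) * R ^ 5 :=
        one_le_mul_of_one_le_of_one_le (by linarith [Nat.cast_nonneg (α := ℝ) N])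
          (one_le_pow₀ hR1)
      nlinarith [mul_le_mul_of_nonneg_right h1 hξ0.le,
        mul_le_mul_of_nonneg_left h2 (show 0 ≤ Q ^ 2 * ξ by positivity)]
  have hxk : ∀ z : ι, ‖g z * (x * k z)‖ ≤ R ^ 2 := fun z => by
    refine (norm_mul_le _ _).trans ((mul_le_of_le_one_left (norm_nonneg _) (hg1 z)).trans ?_)
    exact (norm_mul_le _ _).trans ((mul_le_mul hxR (hkR z) (norm_nonneg _) hR0).trans
      (le_of_eq (by ring)))
  have hxgk : ∀ z : ι, ‖x * g z * k z‖ ≤ R ^ 2 := fun z => by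
    refine norm_mul₃_le.trans ((mul_le_mul ((mul_le_mul hxR (hg1 z) (norm_nonneg _) hR0).trans
      (le_of_eq (mul_one R))) (hkR z) (norm_nonneg _) hR0).trans (le_of_eq (by ring)))
  have hsmall : (Q - 1) * ((N : ℝ) + 1) * (4 * R ^ 5 * ξ) ≤ 1 := by
    refine le_trans ?_ hξ1.le
    have : Q - 1 ≤ 4 * Q ^ 2 := by nlinarith
    have := mul_le_mul_of_nonneg_right this
      (show 0 ≤ ((N : ℝ) + 1) * (4 * R ^ 5 * ξ) by positivity)
    linarith
  have hQm : 0 ≤ Q - 1 := by linarith
  constructor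
  · refine (norm_sum_error_le (fun z => x * g z * k z) (fun z => g z * (x * k z)) hxgk hxk
      (d := ξ * R) fun z => ?_).trans ?_
    · have e : x * g z * k z - g z * (x * k z) = (x * g z - g z * x) * k z := by
        simp only [sub_mul, mul_assoc]
      rw [e]
      exact (norm_mul_le _ _).trans (mul_le_mul (hgc z).1 (hkR z) (norm_nonneg _) hξ0.le)
    have e : ∑ z, g z * (x * k z) * star (g z * (x * k z)) =
        ∑ z, g z * ((x * k z) * star (x * k z)) * star (g z) :=
      Finset.sum_congr rfl fun z _ => by simp only [star_mul, mul_assoc]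
    rw [e]
    have h1 := sum_le_norm_smul g (fun z => (x * k z) * star (x * k z))
      (fun z => mul_star_self_nonneg _) (B := 16) (fun z => by
        refine (norm_mul_le _ _).trans ?_
        rw [norm_star]
        nlinarith [hk1 z, norm_nonneg (x * k z)]) (by norm_num) hgo
    have h2 : (Q - 1) * (2 * R ^ 2 * (ξ * R)) ≤ 1 := by
      refine le_trans ?_ hsmall
      have h3 := mul_le_mul_of_nonneg_right (pow_le_pow_right₀ hR1 (by norm_num : 3 ≤ 5))
        (show 0 ≤ (Q - 1) * ξ by positivity)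
      have h4 : 0 ≤ (Q - 1) * (N : ℝ) * (R ^ 5 * ξ) := by positivity
      linarith [show 0 ≤ (Q - 1) * (R ^ 5 * ξ) by positivity]
    rw [show (Fintype.card ι : ℝ) = Q - 1 by rw [hQ]; ring]
    linarith
  · set X : ι × Fin N → C :=
      fun q => star (v q.2) * (x * g q.1 * k q.1) with hX
    set X' : ι × Fin N → C :=
      fun q => g q.1 * (star (v q.2) * (x * k q.1)) with hX'
    have e1 : (∑ z, ∑ i, star (v i) * ((x * g z * k z) * star (x * g z * k z)) * v i) =
        ∑ q, X q * star (X q) := by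
      rw [Fintype.sum_prod_type]
      exact Finset.sum_congr rfl fun z _ => Finset.sum_congr rfl fun i _ => by
        simp only [hX, star_mul, star_star, mul_assoc]
    have e2 : ∑ q, X' q * star (X' q) = ∑ z, g z *
        (∑ i, star (v i) * ((x * k z) * star (x * k z)) * v i) * star (g z) := by
      rw [Fintype.sum_prod_type]
      refine Finset.sum_congr rfl fun z _ => ?_
      rw [Finset.mul_sum, Finset.sum_mul]
      exact Finset.sum_congr rfl fun i _ => by simp only [hX', star_mul, star_star, mul_assoc]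
    rw [e1]
    refine (norm_sum_error_le X X' (r := R ^ 3) (d := 2 * R ^ 2 * ξ) (fun q => ?_) (fun q => ?_)
      fun q => ?_).trans ?_
    · refine (norm_mul_le _ _).trans ?_
      rw [norm_star]
      exact (mul_le_mul (hvR q.2) (hxgk q.1) (norm_nonneg _) hR0).trans (le_of_eq (by ring))
    · refine (norm_mul_le _ _).trans ((mul_le_of_le_one_left (norm_nonneg _) (hg1 q.1)).trans ?_)
      refine (norm_mul_le _ _).trans ?_
      rw [norm_star]
      exact (mul_le_mul (hvR q.2) ((norm_mul_le _ _).trans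
        (mul_le_mul hxR (hkR q.1) (norm_nonneg _) hR0)) (norm_nonneg _) hR0).trans
        (le_of_eq (by ring))
    · have e : X q - X' q = star (v q.2) * (x * g q.1 - g q.1 * x) * k q.1 +
          (star (v q.2) * g q.1 - g q.1 * star (v q.2)) * (x * k q.1) := by
        simp only [hX, hX', sub_mul, mul_sub, mul_assoc]; abel
      rw [e]
      refine (norm_add_le _ _).trans ?_
      have h1 : ‖star (v q.2) * (x * g q.1 - g q.1 * x) * k q.1‖ ≤ R ^ 2 * ξ :=
        norm_mul₃_le.trans ((mul_le_mul (mul_le_mul ((norm_star _).le.trans (hvR q.2))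
          (hgc q.1).1 (norm_nonneg _) hR0) (hkR q.1) (norm_nonneg _)
          (mul_nonneg hR0 hξ0.le)).trans (le_of_eq (by ring)))
      have h2 : ‖(star (v q.2) * g q.1 - g q.1 * star (v q.2)) * (x * k q.1)‖ ≤ R ^ 2 * ξ :=
        (norm_mul_le _ _).trans ((mul_le_mul ((hgc q.1).2 q.2) ((norm_mul_le _ _).trans
          (mul_le_mul hxR (hkR q.1) (norm_nonneg _) hR0)) (norm_nonneg _)
          hξ0.le).trans (le_of_eq (by ring)))
      linarith
    rw [e2]
    have h1 := sum_le_norm_smul g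
      (fun z => ∑ i, star (v i) * ((x * k z) * star (x * k z)) * v i)
      (fun z => Finset.sum_nonneg fun i _ =>
        star_left_conjugate_nonneg (mul_star_self_nonneg _) _) (B := 16)
      hk2 (by norm_num) hgo
    rw [Fintype.card_prod, Nat.cast_mul, Fintype.card_fin N,
      show (Fintype.card ι : ℝ) = Q - 1 by rw [hQ]; ring]
    have h2 : (Q - 1) * N * (2 * R ^ 3 * (2 * R ^ 2 * ξ)) ≤ 1 := by
      refine le_trans ?_ hsmall
      have h3 : (Q - 1) * (N : ℝ) ≤ (Q - 1) * ((N : ℝ) + 1) :=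
        mul_le_mul_of_nonneg_left (by linarith) hQm
      calc (Q - 1) * N * (2 * R ^ 3 * (2 * R ^ 2 * ξ)) = (Q - 1) * N * (4 * R ^ 5 * ξ) := by ring
        _ ≤ (Q - 1) * ((N : ℝ) + 1) * (4 * R ^ 5 * ξ) :=
            mul_le_mul_of_nonneg_right h3 (by positivity)
    linarith

theorem ramp_mul_self_le (t : C) :
    cfcₙ (ramp (1 / 4) (1 / 2)) (t * star t) * cfcₙ (ramp (1 / 4) (1 / 2)) (t * star t) ≤
      (4 : ℝ) • (t * star t) := by
  have hr0 : ramp (1 / 4) (1 / 2) 0 = 0 := ramp_zero (by norm_num) (by norm_num)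
  have hrc : Continuous (ramp (1 / 4) (1 / 2)) := continuous_ramp _ _
  have ht0 : (0 : C) ≤ t * star t := mul_star_self_nonneg _
  rw [← cfcₙ_mul _ _ _ hrc.continuousOn hr0 hrc.continuousOn hr0]
  calc cfcₙ (fun s => ramp (1 / 4) (1 / 2) s * ramp (1 / 4) (1 / 2) s) (t * star t)
      ≤ cfcₙ (fun s : ℝ => (4 : ℝ) • s) (t * star t) := by
        refine cfcₙ_mono (fun s hs => ?_) (hrc.mul hrc).continuousOn
          (continuous_id.const_smul (4 : ℝ)).continuousOn
          (show ramp (1 / 4) (1 / 2) 0 * ramp (1 / 4) (1 / 2) 0 = 0 by rw [hr0, mul_zero])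
          (show (4 : ℝ) • (0 : ℝ) = 0 by rw [smul_zero])
        have hs0 := quasispectrum_nonneg_of_nonneg _ ht0 s hs
        obtain ⟨r0, r1⟩ := ramp_mem (1 / 4 : ℝ) (1 / 2) s
        rw [smul_eq_mul]
        rcases le_total s (1 / 4) with h | h
        · rw [ramp_of_le (by norm_num) h, mul_zero]; linarith
        · nlinarith [mul_le_one₀ r1 r0 r1]
    _ = (4 : ℝ) • (t * star t) := by
        rw [cfcₙ_smul (4 : ℝ) (fun s : ℝ => s) (t * star t), cfcₙ_id' ℝ (t * star t)]

set_option maxHeartbeats 1000000 in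
/-- A full element of `x C x` which is bounded on the `v i`. -/
theorem exists_thin {m : ℕ} (hD : CoverDim C m) {x : C} (hx : 0 ≤ x) {N : ℕ} (v : Fin N → C)
    (hv : ‖∑ i, v i * star (v i)‖ ≤ 2) {ε : ℝ} (hε : 0 < ε) :
    ∃ d : C, 0 ≤ x * d * x ∧ ‖x * d * x‖ ≤ tB m ∧ ‖∑ i, star (v i) * (x * d * x) * v i‖ ≤ tB m ∧
      ∀ J : Submodule ℂ C, IsStarIdeal J → qn J (x * d * x) ≤ 1 / 64 → cut ε (x * x) ∈ J := by
  classical
  have hxs : star x = x := (IsSelfAdjoint.of_nonneg hx).star_eq
  set O : Set C := {o | ∃ k, o = cut (1 / 2) ((x * k) * star (x * k)) ∧ ‖x * k‖ ≤ 4 ∧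
    ‖∑ i, star (v i) * ((x * k) * star (x * k)) * v i‖ ≤ 16} with hO
  have hO0 : ∀ o ∈ O, 0 ≤ o := by rintro o ⟨k, rfl, -⟩; exact cut_nonneg _ _
  have hJ0 : IsStarIdeal (idealSpan O) :=
    isStarIdeal_idealSpan fun o ho => (IsSelfAdjoint.of_nonneg (hO0 o ho)).star_eq
  have hxJ : x ∈ idealSpan O := by
    by_contra h
    obtain ⟨k, hk1, hk2, hk3⟩ := exists_local hJ0 h v hv
    exact hk3 (idealGen_le_idealSpan (O := O) ⟨k, rfl, hk1, hk2⟩
      (mem_idealGen_self (cut_nonneg _ _)))
  have hxx : 0 ≤ x * x := (IsSelfAdjoint.of_nonneg hx).mul_self_nonneg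
  set b := cut (ε / 4) (x * x) with hb
  have hbJ : b ∈ idealSpan O := cut_mem_of_qn_lt hJ0 hxx (by
    rw [(qn_eq_zero hJ0).2 (hJ0.mul_left x x hxJ)]; linarith)
  set kk : C → C := fun o => if h : o ∈ O then h.choose else 0 with hkk
  have hk : ∀ o ∈ O, o = cut (1 / 2) ((x * kk o) * star (x * kk o)) ∧ ‖x * kk o‖ ≤ 4 ∧
      ‖∑ i, star (v i) * ((x * kk o) * star (x * kk o)) * v i‖ ≤ 16 := fun o ho => by
    simp only [hkk, dif_pos ho]; exact ho.choose_spec
  set G : C → C := fun o => cfcₙ (ramp (1 / 4) (1 / 2)) ((x * kk o) * star (x * kk o)) with hG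
  have hr0 : ramp (1 / 4) (1 / 2) 0 = 0 := ramp_zero (by norm_num) (by norm_num)
  have hrc : Continuous (ramp (1 / 4) (1 / 2)) := continuous_ramp _ _
  obtain ⟨n, o, ho, hcol⟩ := exists_coloured hD (cut_nonneg _ _) O hO0 hbJ G (fun o ho => by
    refine ⟨norm_cfcₙ_le fun t _ => ?_, ?_⟩
    · obtain ⟨h0, h1⟩ := ramp_mem (1 / 4 : ℝ) (1 / 2) t
      rw [Real.norm_of_nonneg h0]; exact h1
    · set t := (x * kk o) * star (x * kk o) with ht
      have e : cfcₙ (ramp (1 / 4) (1 / 2)) t * cut (1 / 2) t = cut (1 / 2) t := by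
        rw [cut, ← cfcₙ_mul _ _ _ hrc.continuousOn hr0 (by fun_prop) (by norm_num)]
        refine cfcₙ_congr fun s _ => ?_
        rcases le_total s (1 / 2) with h | h
        · rw [max_eq_right (sub_nonpos.2 h), mul_zero]
        · rw [ramp_of_ge (by norm_num) h, one_mul]
      calc G o * o = cfcₙ (ramp (1 / 4) (1 / 2)) t * cut (1 / 2) t := by
            rw [ht, ← (hk o ho).1]
        _ = cut (1 / 2) t := e
        _ = o := (hk o ho).1.symm) (show 0 < ε / 4 by linarith)
  set k : Fin n → C := fun l => kk (o l) with hkdef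
  set R := 1 + ‖x‖ + ∑ l, ‖k l‖ + ∑ i, ‖v i‖ with hR
  have hs1 := Finset.sum_nonneg (s := Finset.univ) fun l _ => norm_nonneg (k l)
  have hs2 := Finset.sum_nonneg (s := Finset.univ) fun i _ => norm_nonneg (v i)
  have hR1 : 1 ≤ R := by rw [hR]; linarith [norm_nonneg x]
  have hR0 : 0 ≤ R := by linarith
  have hxR : ‖x‖ ≤ R := by rw [hR]; linarith
  have hkR : ∀ l, ‖k l‖ ≤ R := fun l => by
    rw [hR]; linarith [norm_nonneg x, Finset.single_le_sum (f := fun l => ‖k l‖)
      (fun j _ => norm_nonneg _) (Finset.mem_univ l)]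
  have hvR : ∀ i, ‖v i‖ ≤ R := fun i => by
    rw [hR]; linarith [norm_nonneg x, Finset.single_le_sum (f := fun i => ‖v i‖)
      (fun j _ => norm_nonneg _) (Finset.mem_univ i)]
  set Q : ℝ := (Fintype.card (Fin n × Finset (Fin n)) : ℝ) + 1 with hQ
  have hQ1 : 1 ≤ Q := by rw [hQ]; exact le_add_of_nonneg_left (Nat.cast_nonneg _)
  set ξ : ℝ := 1 / (16 * Q ^ 2 * ((N : ℝ) + 1) * R ^ 5) with hξ
  have hξ0 : 0 < ξ := by positivity
  have hξ1 : 16 * Q ^ 2 * ((N : ℝ) + 1) * R ^ 5 * ξ = 1 := by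
    rw [hξ, mul_one_div, div_self (by positivity)]
  obtain ⟨H, hH1, hHc, hHo, hHJ⟩ := hcol (insert x (Finset.univ.image fun i => star (v i))) ξ hξ0
  set T : Fin n × Finset (Fin n) → C := fun z => x * H z * k z.1 with hT
  set d := ∑ z, H z * k z.1 * star (H z * k z.1) with hd
  have hc : x * d * x = ∑ z, T z * star (T z) := by
    rw [hd, Finset.mul_sum, Finset.sum_mul]
    exact Finset.sum_congr rfl fun z _ => by simp only [hT, star_mul, hxs, mul_assoc]
  have hxH : ∀ z, ‖x * H z - H z * x‖ ≤ ξ := fun z =>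
    (norm_sub_rev _ _).le.trans (hHc z x (Finset.mem_insert_self _ _)).1
  have hvH : ∀ z i, ‖star (v i) * H z - H z * star (v i)‖ ≤ ξ := fun z i =>
    (norm_sub_rev _ _).le.trans (hHc z _ (by simp)).1
  -- the bounds, colour by colour
  set col := fun z : Fin n × Finset (Fin n) => colOf m z with hcoldef
  have hp : ∀ p, ‖∑ z, if col z = p then T z * star (T z) else 0‖ ≤ 33 ∧
      ‖∑ z, if col z = p then ∑ i, star (v i) * (T z * star (T z)) * v i else 0‖ ≤ 33 := by
    intro p
    set g : Fin n × Finset (Fin n) → C := fun z => if col z = p then H z else 0 with hg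
    have h2 := colour_bound hxs g (fun z => k z.1) v hR1 hξ0 hQ hξ1 hxR (fun z => hkR z.1) hvR
      (fun z => by simp only [hg]; split_ifs; exacts [hH1 z, by simp])
      (fun z w hzw => by
        simp only [hg]
        split_ifs with h1 h2
        · exact (hHo z w hzw (h1.trans h2.symm)).1
        all_goals simp [hξ0.le])
      (fun z => by
        simp only [hg]; split_ifs
        · exact ⟨hxH z, hvH z⟩
        · simp [hξ0.le])
      (fun z => (hk (o z.1) (ho z.1)).2.1) (fun z => (hk (o z.1) (ho z.1)).2.2)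
    have e : ∀ z, x * g z * k z.1 = if col z = p then T z else 0 := fun z => by
      simp only [hg, hT]; split_ifs <;> simp
    simp only [e] at h2
    refine ⟨le_of_eq_of_le ?_ h2.1, le_of_eq_of_le ?_ h2.2⟩
    · congr 1
      refine Finset.sum_congr rfl fun z _ => ?_
      split_ifs <;> simp
    · congr 1
      refine Finset.sum_congr rfl fun z _ => ?_
      split_ifs <;> simp
  have hm : tB m = ∑ _p : Fin (m + 1) × Fin (m + 1), (33 : ℝ) := by simp [tB]; ring
  have hc0 : 0 ≤ x * d * x := by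
    rw [hc]; exact Finset.sum_nonneg fun z _ => mul_star_self_nonneg _
  refine ⟨d, hc0, ?_, ?_, fun J hJ hq => ?_⟩
  · rw [hm, hc, show (∑ z, T z * star (T z)) = ∑ p, ∑ z, if col z = p then T z * star (T z) else 0 by
      rw [Finset.sum_comm]; simp]
    exact (norm_sum_le _ _).trans (Finset.sum_le_sum fun p _ => (hp p).1)
  · have e : ∑ i, star (v i) * (x * d * x) * v i =
        ∑ z, ∑ i, star (v i) * (T z * star (T z)) * v i := by
      rw [hc, Finset.sum_comm]; simp only [Finset.mul_sum, Finset.sum_mul]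
    rw [hm, e, show (∑ z, ∑ i, star (v i) * (T z * star (T z)) * v i) =
        ∑ p, ∑ z, if col z = p then ∑ i, star (v i) * (T z * star (T z)) * v i else 0 by
      conv_rhs => rw [Finset.sum_comm]
      simp]
    exact (norm_sum_le _ _).trans (Finset.sum_le_sum fun p _ => (hp p).2)
  have hbJ' : cut (ε / 4) b ∈ J := by
    refine hHJ J hJ fun z => ?_
    have h1 : qn J (T z) ^ 2 ≤ 1 / 64 := by
      rw [← qn_mul_star_self hJ]
      refine (qn_le_of_le hJ (mul_star_self_nonneg _) ?_).trans hq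
      rw [hc]
      exact Finset.single_le_sum (f := fun z => T z * star (T z))
        (fun z _ => mul_star_self_nonneg _) (Finset.mem_univ z)
    set t := x * k z.1 with ht
    have h2 : qn J (H z * t) ≤ 3 / 16 := by
      have e : H z * t - T z = (H z * x - x * H z) * k z.1 := by
        simp only [hT, ht, sub_mul, mul_assoc]
      have h3 : ‖H z * t - T z‖ ≤ ξ * R := by
        rw [e]
        exact (norm_mul_le _ _).trans (mul_le_mul ((norm_sub_rev _ _).le.trans (hxH z))
          (hkR z.1) (norm_nonneg _) hξ0.le)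
      have h4 : ξ * R ≤ 1 / 16 := by
        have h5 : (1 : ℝ) ≤ Q ^ 2 * ((N : ℝ) + 1) :=
          one_le_mul_of_one_le_of_one_le (one_le_pow₀ hQ1)
            (by linarith [Nat.cast_nonneg (α := ℝ) N])
        have h6 := mul_le_mul h5 (le_self_pow₀ hR1 (by norm_num : 5 ≠ 0)) hR0 (by positivity)
        have h7 := mul_le_mul_of_nonneg_right h6 hξ0.le
        linarith
      nlinarith [qn_le_norm_of_sub (J := J) h3, qn_nonneg (J := J) (T z)]
    set g := G (o z.1) with hg
    have hg0 : 0 ≤ g := cfcₙ_nonneg fun t _ => (ramp_mem _ _ t).1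
    have hgs : star g = g := (IsSelfAdjoint.of_nonneg hg0).star_eq
    have hgg : g * g ≤ (4 : ℝ) • (t * star t) := ramp_mul_self_le t
    have h5 : qn J (H z * g) ^ 2 ≤ 4 * qn J (H z * t) ^ 2 := by
      rw [← qn_mul_star_self hJ, ← qn_mul_star_self hJ]
      have h6 := conj_le_conj' (H z) hgg
      rw [mul_smul_comm, smul_mul_assoc] at h6
      have e : H z * g * star (H z * g) = H z * (g * g) * star (H z) := by
        simp only [star_mul, hgs, mul_assoc]
      rw [e]
      refine (qn_le_of_le hJ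
        (star_right_conjugate_nonneg ((IsSelfAdjoint.of_nonneg hg0).mul_self_nonneg) _) h6).trans ?_
      refine (qn_smul_le _).trans_eq ?_
      rw [abs_of_pos (by norm_num : (0 : ℝ) < 4)]
      simp only [star_mul, mul_assoc]
    nlinarith [qn_nonneg (J := J) (H z * g), qn_nonneg (J := J) (H z * t)]
  refine cut_mem_of_qn_lt hJ hxx ?_
  have h1 := (qn_le_norm_sub hbJ').trans
    (norm_sub_cut_le (show 0 ≤ ε / 4 by linarith) (cut_nonneg _ _))
  have h2 := (qn_le_add_norm (J := J) (x * x) b).trans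
    (add_le_add h1 (norm_sub_cut_le (show 0 ≤ ε / 4 by linarith) hxx))
  linarith

theorem diag_nonneg {n : ℕ} {M : CStarMatrix (Fin n) (Fin n) C} (hM : 0 ≤ M) (k : Fin n) :
    0 ≤ M k k := by
  obtain ⟨S, hSs, hSS⟩ := exists_sqrt hM
  rw [← hSS, CStarMatrix.mul_apply]
  refine Finset.sum_nonneg fun l _ => ?_
  have : S l k = star (S k l) := by
    conv_lhs => rw [← hSs]
    rw [CStarMatrix.star_apply]
  rw [this]
  exact mul_star_self_nonneg _

set_option maxHeartbeats 1000000 in
/-- Two almost orthogonal full elements of the hereditary subalgebra of `x`. -/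
theorem exists_base {n m : ℕ} (hn : 1 ≤ n) (hC : WeaklyPurelyInfiniteWith C n)
    (hD : CoverDim C m) :
    ∃ γ : ℝ, 0 < γ ∧ ∀ {x : C}, 0 ≤ x → ∀ {ε : ℝ}, 0 < ε → ∀ η : ℝ, 0 < η → ∃ a c : C, 0 ≤ a ∧ 0 ≤ c ∧ ‖a‖ ≤ 1 ∧ ‖c‖ ≤ 1 ∧
      InHer x a ∧ InHer x c ∧ ‖a * c‖ ≤ η ∧ ∀ J : Submodule ℂ C, IsStarIdeal J →
        (qn J a ≤ γ → cut ε (x * x) ∈ J) ∧ (qn J c ≤ γ → cut ε (x * x) ∈ J) := by
  have hn0 : (1 : ℝ) ≤ n := by exact_mod_cast hn
  have hn0' : (0 : ℝ) < n := by linarith
  set K := tB m with hKdef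
  have hK1 : 1 ≤ K := by rw [hKdef, tB]; nlinarith [Nat.cast_nonneg (α := ℝ) m]
  set K' := (n : ℝ) * K with hK'
  have hK'1 : 1 ≤ K' := one_le_mul_of_one_le_of_one_le hn0 hK1
  set γ := min (1 / (64 * K)) (1 / (128 * (n : ℝ) ^ 4)) with hγ
  refine ⟨γ, lt_min (by positivity) (by positivity), fun {x} hx {ε} hε η hη => ?_⟩
  obtain ⟨N, hN⟩ := exists_nat_gt (8 * K' ^ 2 / η ^ 2)
  have hN0' : (0 : ℝ) < N := lt_of_le_of_lt (by positivity) hN
  have hN0 : 0 < N := by exact_mod_cast hN0'
  -- the copies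
  set h := x * x with hh
  have hh0 : 0 ≤ h := (IsSelfAdjoint.of_nonneg hx).mul_self_nonneg
  have hab : ε / 2 < ε := by linarith
  set φ := ramp (ε / 2) ε with hφ
  have hφc : Continuous φ := continuous_ramp _ _
  have hφ0 : φ 0 = 0 := ramp_zero hab (by linarith)
  set ψ : ℝ → ℝ := fun t => √(φ t) with hψ
  have hψc : Continuous ψ := hφc.sqrt
  have hψ0 : ψ 0 = 0 := by simp [hψ, hφ0]
  set F := cfcₙ φ h with hF
  have hF0 : 0 ≤ F := cfcₙ_nonneg fun t _ => (ramp_mem _ _ t).1
  have hF1 : ‖F‖ ≤ 1 := norm_cfcₙ_le fun t _ => by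
    obtain ⟨h0, h1⟩ := ramp_mem (ε / 2) ε t
    rw [Real.norm_of_nonneg h0]; exact h1
  set H := cfcₙ ψ h with hH
  have hHs : star H = H := (cfcₙ_predicate ψ h : IsSelfAdjoint H).star_eq
  have hHH : H * H = F := by
    rw [hH, hF, ← cfcₙ_mul ψ ψ h hψc.continuousOn hψ0 hψc.continuousOn hψ0]
    exact cfcₙ_congr fun t _ => Real.mul_self_sqrt (ramp_mem _ _ t).1
  set gf : ℝ → ℝ := fun t => ψ t / max t (ε / 2) with hgf
  have hmx : ∀ t : ℝ, max t (ε / 2) ≠ 0 := fun t => (lt_max_of_lt_right (by linarith)).ne'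
  have hgc : Continuous gf := hψc.div (by fun_prop) hmx
  have hg0 : gf 0 = 0 := by simp [hgf, hψ0]
  have hxgH : x * (x * cfcₙ gf h) = H := by
    rw [← mul_assoc, ← hh, hH]
    have e := cfcₙ_mul (fun t : ℝ => t) gf h continuous_id.continuousOn rfl hgc.continuousOn hg0
    rw [cfcₙ_id' ℝ h] at e
    rw [← e]
    refine cfcₙ_congr fun t _ => ?_
    rcases le_total t (ε / 2) with h1 | h1
    · simp [hgf, hψ, hφ, ramp_of_le hab h1]
    · have : t ≠ 0 := (lt_of_lt_of_le (by linarith : (0 : ℝ) < ε / 2) h1).ne'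
      simp only [hgf, max_eq_left h1]
      field_simp
  set μ := 1 / (1000 * ((N : ℝ) + 1) ^ 3) with hμ
  obtain ⟨a0, ha0⟩ := hC.copies hn hF0 N (show 0 < μ by positivity)
  set r : Fin n → Fin N → C := fun j i => x * cfcₙ gf h * a0 j i with hr
  set v : Fin n → Fin N → C := fun j i => x * r j i with hv
  have hvv : ∀ i i', ‖(∑ j, star (v j i) * v j i') - if i = i' then F else 0‖ < μ := fun i i' => by
    have : ∀ j, star (v j i) * v j i' = star (a0 j i) * F * a0 j i' := fun j => by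
      have e : ∀ i, v j i = H * a0 j i := fun i => by rw [← hxgH]; simp only [hv, hr, mul_assoc]
      rw [e, e, star_mul, hHs, ← hHH]; simp only [mul_assoc]
    simp only [this]
    exact ha0 i i'
  set i0 : Fin n := ⟨0, by omega⟩ with hi0
  set V : Fin N → CStarMatrix (Fin n) (Fin n) C := fun i => ∑ j, sng j i0 (v j i) with hV
  set F' := sng i0 i0 F with hF'
  have hsum : ∀ {ι : Type} (s : Finset ι) (f : ι → C),
      ∑ l ∈ s, sng i0 i0 (f l) = sng i0 i0 (∑ l ∈ s, f l) :=
    fun s f => (map_sum (cornerHom i0) f s).symm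
  have hVV : ∀ i i', star (V i) * V i' = sng i0 i0 (∑ j, star (v j i) * v j i') := fun i i' => by
    simp only [hV, star_sum, star_sng, Finset.sum_mul, Finset.mul_sum, sng_mul_sng,
      Finset.sum_ite_eq, Finset.sum_ite_eq', Finset.mem_univ, if_true, hsum]
  have hVμ : ∀ i i', ‖star (V i) * V i' - if i = i' then F' else 0‖ ≤ μ := fun i i' => by
    have e : star (V i) * V i' - (if i = i' then F' else 0) =
        cornerHom i0 ((∑ j, star (v j i) * v j i') - if i = i' then F else 0) := by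
      rw [hVV, map_sub]
      congr 1
      split_ifs
      · rfl
      · exact (map_zero (cornerHom i0)).symm
    rw [e]
    exact (norm_sng_le _ _ _).trans (hvv i i').le
  have hF'1 : ‖F'‖ ≤ 1 := (norm_sng_le _ _ _).trans hF1
  have hF'0 : 0 ≤ F' := by
    have e : F' = star (sng i0 i0 H) * sng i0 i0 H := by
      rw [star_sng, sng_mul_sng, if_pos rfl, hHs, hHH]
    rw [e]; exact star_mul_self_nonneg _
  have hμs : μ * (1000 * ((N : ℝ) + 1) ^ 3) = 1 := by
    rw [hμ, div_mul_cancel₀ _ (by positivity)]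
  have hN1 : (1 : ℝ) ≤ ((N : ℝ) + 1) ^ 3 := one_le_pow₀ (by linarith)
  have hμ1 : μ ≤ 1 / 1000 := by
    rw [hμ, div_le_div_iff₀ (by positivity) (by norm_num)]; linarith
  have hVn : ∀ i, ‖star (V i) * V i‖ ≤ 1 + μ := fun i => by
    have h1 := hVμ i i
    rw [if_pos rfl] at h1
    linarith [norm_le_norm_add_norm_sub' (star (V i) * V i) F']
  have hV2 : ∀ i, ‖V i‖ ≤ 2 := fun i => by
    have := hVn i
    rw [CStarRing.norm_star_mul_self] at this
    nlinarith [norm_nonneg (V i)]
  set X := ∑ i, V i * star (V i) with hX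
  have hX2 : ‖X‖ ≤ 2 := by
    refine (norm_sum_orth_le V (B := 1 + μ) (β := 2) (e := μ) hVn (by positivity) hV2
      (by positivity) (fun i i' h => ?_) ?_).trans (by linarith)
    · simpa [h] using hVμ i i'
    · rw [Fintype.card_fin]
      have h1 : (N : ℝ) ^ 2 ≤ ((N : ℝ) + 1) ^ 3 :=
        (pow_le_pow_left₀ hN0'.le (by linarith) 2).trans
          (pow_le_pow_right₀ (by linarith) (by norm_num))
      nlinarith [mul_le_mul_of_nonneg_right h1 (show 0 ≤ μ by positivity)]
  have hXapp : ∀ j l, X j l = ∑ i, v j i * star (v l i) := fun j l => by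
    rw [hX, sum_apply']
    refine Finset.sum_congr rfl fun i _ => ?_
    simp only [hV, star_sum, star_sng, Finset.sum_mul, Finset.mul_sum, sng_mul_sng, if_true,
      sum_apply', sng_apply]
    simp [Finset.sum_ite_eq, ite_and]
  have hxs : star x = x := (IsSelfAdjoint.of_nonneg hx).star_eq
  set P : Fin n → Fin n → C := fun j l => ∑ i, r j i * star (r l i) with hP
  have hXP : ∀ j l, X j l = x * P j l * x := fun j l => by
    rw [hXapp, hP, Finset.mul_sum, Finset.sum_mul]
    exact Finset.sum_congr rfl fun i _ => by simp only [hv, star_mul, hxs, mul_assoc]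
  -- the thin element
  set e0 : Fin (n * N) → Fin n × Fin N := fun p => finProdFinEquiv.symm p
  set s0 : ℝ := 1 / √n with hs0
  have hs00 : 0 ≤ s0 := by positivity
  have hs2 : s0 * s0 = 1 / n := by
    rw [hs0, div_mul_div_comm, one_mul, Real.mul_self_sqrt hn0'.le]
  set v' : Fin (n * N) → C := fun p => s0 • v (e0 p).1 (e0 p).2 with hv'
  have hreix : ∀ f : Fin n → Fin N → C, ∑ p, f (e0 p).1 (e0 p).2 = ∑ j, ∑ i, f j i := fun f => by
    rw [Equiv.sum_comp finProdFinEquiv.symm fun q : Fin n × Fin N => f q.1 q.2,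
      Fintype.sum_prod_type]
  have hv2 : ‖∑ p, v' p * star (v' p)‖ ≤ 2 := by
    have e : ∑ p, v' p * star (v' p) = (1 / (n : ℝ)) • ∑ j, X j j := by
      simp only [hv', star_smul, star_trivial, smul_mul_assoc, mul_smul_comm, smul_smul, hs2,
        ← Finset.smul_sum, hXapp, hreix (fun j i => v j i * star (v j i))]
    rw [e, norm_smul, Real.norm_of_nonneg (by positivity)]
    calc 1 / (n : ℝ) * ‖∑ j, X j j‖ ≤ 1 / n * (n * 2) := by
          refine mul_le_mul_of_nonneg_left ((norm_sum_le _ _).trans ?_) (by positivity)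
          refine (Finset.sum_le_sum (g := fun _ => (2 : ℝ)) fun j _ =>
            CStarMatrix.norm_entry_le_norm.trans hX2).trans (by simp)
      _ = 2 := by field_simp
  obtain ⟨d, hc0, hcK, hΦ, hfull⟩ := exists_thin hD hx v' hv2 hε
  set c := x * d * x with hc
  set c' : CStarMatrix (Fin n) (Fin n) C := ∑ j, sng j j c with hc'
  have hc'0 : 0 ≤ c' := by
    obtain ⟨q, hqs, hqq⟩ := exists_sqrt hc0
    refine Finset.sum_nonneg fun j _ => ?_
    have e : sng j j c = star (sng j j q) * sng j j q := by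
      rw [star_sng, sng_mul_sng, if_pos rfl, hqs, hqq]
    rw [e]; exact star_mul_self_nonneg _
  have hc'K : ‖c'‖ ≤ K' := by
    refine (norm_sum_le _ _).trans ((Finset.sum_le_sum (g := fun _ => K) fun j _ =>
      (norm_sng_le _ _ _).trans hcK).trans (by simp [hK']))
  have hΦ' : ‖∑ i, star (V i) * c' * V i‖ ≤ K' := by
    have e : ∑ i, star (V i) * c' * V i =
        sng i0 i0 (∑ i, ∑ j, star (v j i) * c * v j i) := by
      rw [← hsum]
      refine Finset.sum_congr rfl fun i _ => ?_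
      simp only [hV, hc', star_sum, star_sng, Finset.sum_mul, Finset.mul_sum, sng_mul_sng, ite_mul,
        zero_mul, Finset.sum_ite_eq, Finset.sum_ite_eq', Finset.mem_univ, if_true, hsum]
    rw [e]
    refine (norm_sng_le _ _ _).trans ?_
    have e2 : ∑ p, star (v' p) * c * v' p =
        (1 / (n : ℝ)) • ∑ j, ∑ i, star (v j i) * c * v j i := by
      simp only [hv', star_smul, star_trivial, smul_mul_assoc, mul_smul_comm, smul_smul, hs2,
        ← Finset.smul_sum, hreix (fun j i => star (v j i) * c * v j i)]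
    rw [e2, norm_smul, Real.norm_of_nonneg (by positivity), one_div_mul_eq_div,
      div_le_iff₀ hn0', Finset.sum_comm] at hΦ
    linarith
  -- the complement
  have he : (0 : ℝ) < 4 * K' / N := by positivity
  have hX0 : 0 ≤ X := Finset.sum_nonneg fun i _ => mul_star_self_nonneg _
  obtain ⟨A, hA0, hA4, hAX, hAle, hAc⟩ := exists_compl hX0 hX2 hc'0 hc'K he
  set a := ∑ j, A j j with ha
  have ha0' : 0 ≤ a := Finset.sum_nonneg fun j _ => diag_nonneg hA0 j
  have han : ‖a‖ ≤ 4 * n := by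
    refine (norm_sum_le _ _).trans ((Finset.sum_le_sum (g := fun _ => (4 : ℝ)) fun j _ =>
      CStarMatrix.norm_entry_le_norm.trans hA4).trans (by simp [mul_comm]))
  have hax : InHer x a := fun δ hδ => by
    obtain ⟨g, hg⟩ := hAX (δ / n) (by positivity)
    refine ⟨∑ j, (P j j + ∑ l, (∑ q, P j q * x * g q l) * x * P l j), ?_⟩
    have e : a - x * (∑ j, (P j j + ∑ l, (∑ q, P j q * x * g q l) * x * P l j)) * x =
        ∑ j, (A - (X + X * g * X)) j j := by
      simp only [ha, CStarMatrix.sub_apply, CStarMatrix.add_apply, CStarMatrix.mul_apply, hXP,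
        Finset.sum_sub_distrib, Finset.mul_sum, Finset.sum_mul, mul_add, add_mul, mul_assoc]
      congr 1
      refine Finset.sum_congr rfl fun j _ => ?_
      congr 1
      exact Finset.sum_comm
    rw [e]
    refine lt_of_le_of_lt (norm_sum_le _ _) ?_
    refine lt_of_lt_of_le (Finset.sum_lt_sum_of_nonempty ⟨i0, Finset.mem_univ _⟩
      (g := fun _ => δ / n) fun j _ => lt_of_le_of_lt CStarMatrix.norm_entry_le_norm hg) ?_
    simp [mul_div_cancel₀ _ hn0'.ne']
  have hacn : ‖a * c‖ ≤ n * (2 * √(2 * (4 * K' / N) * K')) := by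
    rw [ha, Finset.sum_mul]
    refine (norm_sum_le _ _).trans ((Finset.sum_le_sum (g := fun _ => 2 * √(2 * (4 * K' / N) * K'))
      fun j _ => ?_).trans (by simp))
    have e : A j j * c = (A * c') j j := by
      simp [CStarMatrix.mul_apply, hc', sum_apply', sng_apply, ite_and, Finset.sum_ite_eq,
        Finset.sum_ite_eq']
    rw [e]
    exact CStarMatrix.norm_entry_le_norm.trans hAc
  have hpos : (0 : ℝ) < 1 / (4 * (n : ℝ)) := by positivity
  refine ⟨(1 / (4 * (n : ℝ))) • a, (1 / K) • c, smul_nonneg hpos.le ha0',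
    smul_nonneg (by positivity) hc0, ?_, ?_, ?_, ?_, ?_, fun J hJ => ⟨fun hq => ?_, fun hq => ?_⟩⟩
  · rw [norm_smul, Real.norm_of_nonneg hpos.le, one_div_mul_eq_div, div_le_one (by positivity)]
    exact han
  · rw [norm_smul, Real.norm_of_nonneg (by positivity), one_div_mul_eq_div,
      div_le_one (by positivity)]
    exact hcK
  · intro δ hδ
    obtain ⟨g, hg⟩ := hax δ hδ
    refine ⟨(1 / (4 * (n : ℝ))) • g, lt_of_le_of_lt ?_ hg⟩
    rw [mul_smul_comm, smul_mul_assoc, ← smul_sub, norm_smul, Real.norm_of_nonneg hpos.le]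
    exact mul_le_of_le_one_left (norm_nonneg _) (by rw [div_le_one (by positivity)]; linarith)
  · exact fun δ hδ => ⟨(1 / K) • d, by
      rw [hc, mul_smul_comm, smul_mul_assoc, sub_self, norm_zero]; exact hδ⟩
  · rw [smul_mul_assoc, mul_smul_comm, smul_smul, norm_smul,
      Real.norm_of_nonneg (by positivity)]
    refine le_trans (mul_le_mul_of_nonneg_left hacn (by positivity)) ?_
    have h1 : √(2 * (4 * K' / N) * K') ≤ η := by
      refine Real.sqrt_le_iff.2 ⟨hη.le, ?_⟩
      rw [div_lt_iff₀ (by positivity)] at hN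
      have e1 : 2 * (4 * K' / (N : ℝ)) * K' = 8 * K' ^ 2 / N := by ring
      rw [e1, div_le_iff₀ hN0']
      linarith
    calc 1 / (4 * (n : ℝ)) * (1 / K) * (n * (2 * √(2 * (4 * K' / N) * K')))
        = √(2 * (4 * K' / N) * K') / (2 * K) := by field_simp; ring
      _ ≤ η / 1 := div_le_div₀ hη.le h1 one_pos (by linarith)
      _ = η := div_one η
  · set J' := matIdeal n J
    have hJ' : IsStarIdeal J' := isStarIdeal_matIdeal hJ
    have hq4 : qn J a ≤ 4 * n * γ := by
      have h2 := qn_smul_le (J := J) (r := 4 * (n : ℝ)) ((1 / (4 * (n : ℝ))) • a)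
      rw [smul_smul, mul_one_div, div_self (by positivity), one_smul,
        abs_of_pos (by positivity)] at h2
      exact h2.trans (mul_le_mul_of_nonneg_left hq (by positivity))
    have hA' : qn J' A ≤ 1 / 32 := by
      refine (qn_mat_le_sum J A).trans ((Finset.sum_le_sum (g := fun _ => (n : ℝ) * (n * (4 * n * γ)))
        fun i _ => (Finset.sum_le_sum (g := fun _ => (n : ℝ) * (4 * n * γ)) fun j _ =>
          (qn_entry_le_trace hJ hA0 i j).trans (mul_le_mul_of_nonneg_left hq4 hn0'.le)).trans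
          (by simp)).trans ?_)
      simp only [Finset.sum_const, Finset.card_univ, Fintype.card_fin, nsmul_eq_mul]
      have h1 : γ * (128 * (n : ℝ) ^ 4) ≤ 1 := by
        rw [← le_div_iff₀ (by positivity)]; exact min_le_right _ _
      linarith
    have hle : X - ((N : ℝ) / (2 * K')) • (X * c' * X) ≤ A := by
      have e1 : (N : ℝ) / (2 * K') = 2 / (4 * K' / N) := by field_simp; ring
      rw [e1]; exact hAle
    have hF3 := qn_copies_le hN0 V hF'0 hF'1 hc'0 hK'1 hc'K hΦ' hV2 hVμ
      (le_of_eq (by linarith)) hX hA0 hle hJ' hA'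
    have hF4 : qn J F < 3 / 4 := by
      refine lt_of_le_of_lt ?_ hF3
      have := qn_entry_le J F' i0 i0
      simpa [hF', sng_apply] using this
    exact cfc_mem_of_qn_lt hJ (IsSelfAdjoint.of_nonneg hh0) hφc hφ0 (by norm_num) hF4
      (by fun_prop) (max_eq_right (by linarith)) fun s _ hs => by
        rw [hφ, ramp_of_ge hab (le_of_not_ge fun h1 => hs (max_eq_right (sub_nonpos.2 h1)))]
        norm_num
  · refine hfull J hJ ?_
    have h2 := qn_smul_le (J := J) (r := K) ((1 / K) • c)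
    rw [smul_smul, mul_one_div, div_self (by positivity), one_smul, abs_of_pos (by positivity)]
      at h2
    have h3 : γ * (64 * K) ≤ 1 := by
      rw [← le_div_iff₀ (by positivity)]; exact min_le_left _ _
    linarith [mul_le_mul_of_nonneg_left hq (show 0 ≤ K by positivity)]

end Vale.Agent.P133
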