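import Vale.Agent.P133.W.Levels
import Vale.Agent.P133.Dim.Defs

/-!
P133: from covering dimension `m`, finitely many pieces in `(m + 1) ^ 2` colours; pieces of the
same colour are almost orthogonal, and together they see the whole element.
-/

namespace Vale.Agent.P133

open scoped ComplexOrder

set_option linter.unusedSectionVars false

variable {C : Type*} [NonUnitalCStarAlgebra C] [PartialOrder C] [StarOrderedRing C]

theorem exists_finite_sum {o z : C} (h : z ∈ idealGen o) {η : ℝ} (hη : 0 < η) :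
    ∃ (M : ℕ) (p q : Fin M → C), ‖z - ∑ i, p i * o * q i‖ < η := by
  have key : ∀ e ∈ Submodule.span ℂ {e : C | ∃ p q, e = p * o * q},
      ∃ (M : ℕ) (p q : Fin M → C), e = ∑ i, p i * o * q i := by
    intro e he
    induction he using Submodule.span_induction with
    | mem e he =>
      obtain ⟨p, q, rfl⟩ := he
      exact ⟨1, fun _ => p, fun _ => q, by simp⟩
    | zero => exact ⟨0, Fin.elim0, Fin.elim0, by simp⟩
    | add x y _ _ hx hy =>
      obtain ⟨M, p, q, rfl⟩ := hx
      obtain ⟨M', p', q', rfl⟩ := hy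
      exact ⟨M + M', Fin.append p p', Fin.append q q', by simp [Fin.sum_univ_add]⟩
    | smul c x _ hx =>
      obtain ⟨M, p, q, rfl⟩ := hx
      exact ⟨M, fun i => c • p i, q, by simp [Finset.smul_sum, smul_mul_assoc]⟩
  obtain ⟨e, he, hze⟩ := Metric.mem_closure_iff.1 h η hη
  rw [dist_eq_norm] at hze
  obtain ⟨M, p, q, rfl⟩ := key e he
  exact ⟨M, p, q, hze⟩

theorem norm_pl_fix_le {ι : Type*} [DecidableEq ι] {a : ι → C} (ha : ∀ i, ‖a i‖ ≤ 1)
    (T : Finset ι) {X : C} {e : ℝ} (he : 0 ≤ e) (h : ∀ i ∈ T, ‖a i * X - X‖ ≤ e) :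
    ∀ L, ‖pl a T X L - X‖ ≤ L.length * e
  | [] => by simp [pl]
  | i :: L => by
      have ih := norm_pl_fix_le ha T he h L
      simp only [pl, List.length_cons]
      push_cast
      split_ifs with hi
      · have e1 : a i * pl a T X L - X = a i * (pl a T X L - X) + (a i * X - X) := by
          simp only [mul_sub]; abel
        rw [e1]
        linarith [norm_add_le (a i * (pl a T X L - X)) (a i * X - X), h i hi,
          (norm_mul_le (a i) (pl a T X L - X)).trans
            (mul_le_of_le_one_left (norm_nonneg _) (ha i))]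
      · linarith

theorem qn_pl_le {ι : Type*} [DecidableEq ι] {a : ι → C} (ha : ∀ i, ‖a i‖ ≤ 1)
    {J : Submodule ℂ C} (hJ : IsStarIdeal J) (T : Finset ι) (X : C) :
    ∀ L, qn J (pl a T X L) ≤ qn J X
  | [] => le_rfl
  | i :: L => by
      simp only [pl]
      split_ifs
      · exact (qn_mul_le_of_norm hJ (ha i) _).trans (qn_pl_le ha hJ T X L)
      · exact qn_pl_le ha hJ T X L

theorem norm_pl_comp_le {ι : Type*} [DecidableEq ι] {a b : ι → C} (ha : ∀ i, ‖a i‖ ≤ 1)
    (hb : ∀ i, ‖b i‖ ≤ 1) {c : ℝ} (hc : 0 ≤ c) (haa : ∀ i j, ‖a i * a j - a j * a i‖ ≤ c)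
    (hba : ∀ i j, ‖b i * a j - a j * b i‖ ≤ c) (hbb : ∀ i j, ‖b i * b j - b j * b i‖ ≤ c)
    (hab : ∀ i, ‖a i * b i - a i‖ ≤ c) (L : List ι) (hL : L.Nodup) (T : Finset ι)
    (hT : ∀ i ∈ T, i ∈ L) (X : C) :
    ‖pl a T (pl b T X L) L - pl a T X L‖ ≤ T.card * ((4 * L.length + 1) * c) * ‖X‖ := by
  induction T using Finset.induction_on with
  | empty => simp [pl_empty]
  | insert i T hi ih =>
    have hiL := hT i (Finset.mem_insert_self i T)
    set Y := pl b (insert i T) X L
    set Q := pl b T X L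
    have h1 := norm_pl_insert_le hb (X := X) hc (i := i) (T := T) (fun j _ => hbb i j) hi L hL hiL
    have h2 := norm_pl_insert_le ha (X := Y) hc (i := i) (T := T) (fun j _ => haa i j) hi L hL hiL
    have h3 := norm_mul_pl_sub_le ha (q := b i) (X := Q) hc T (fun j _ => hba i j) L
    have h4 := ih (fun j hj => hT j (Finset.mem_insert_of_mem hj))
    have h5 := norm_pl_insert_le ha (X := X) hc (i := i) (T := T) (fun j _ => haa i j) hi L hL hiL
    have hYn : ‖Y‖ ≤ ‖X‖ := norm_pl_le hb _ _ _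
    have hQn : ‖Q‖ ≤ ‖X‖ := norm_pl_le hb _ _ _
    have h6 : ‖pl a T (Y - b i * Q) L‖ ≤ L.length * c * ‖X‖ := (norm_pl_le ha _ _ _).trans h1
    have e1 : pl a (insert i T) Y L - pl a (insert i T) X L =
        (pl a (insert i T) Y L - a i * pl a T Y L) + a i * pl a T (Y - b i * Q) L -
          a i * (b i * pl a T Q L - pl a T (b i * Q) L) + (a i * b i - a i) * pl a T Q L +
          a i * (pl a T Q L - pl a T X L) - (pl a (insert i T) X L - a i * pl a T X L) := by
      simp only [pl_sub, sub_mul, mul_sub, mul_assoc]; abel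
    rw [e1]
    have hLc : 0 ≤ (L.length : ℝ) * c := by positivity
    have b2 := mul_le_mul_of_nonneg_left hYn hLc
    have b3 := mul_le_mul_of_nonneg_left hQn hLc
    have c1 := (norm_mul_le (a i) (pl a T (Y - b i * Q) L)).trans
      (mul_le_of_le_one_left (norm_nonneg _) (ha i))
    have c2 := (norm_mul_le (a i) (b i * pl a T Q L - pl a T (b i * Q) L)).trans
      (mul_le_of_le_one_left (norm_nonneg _) (ha i))
    have c3 := (norm_mul_le (a i * b i - a i) (pl a T Q L)).trans
      (mul_le_mul (hab i) ((norm_pl_le ha _ _ _).trans hQn) (norm_nonneg _) hc)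
    have c4 := (norm_mul_le (a i) (pl a T Q L - pl a T X L)).trans
      (mul_le_of_le_one_left (norm_nonneg _) (ha i))
    rw [Finset.card_insert_of_notMem hi]
    push_cast
    set t1 := pl a (insert i T) Y L - a i * pl a T Y L
    set t2 := a i * pl a T (Y - b i * Q) L
    set t3 := a i * (b i * pl a T Q L - pl a T (b i * Q) L)
    set t4 := (a i * b i - a i) * pl a T Q L
    set t5 := a i * (pl a T Q L - pl a T X L)
    set t6 := pl a (insert i T) X L - a i * pl a T X L
    linarith [norm_sub_le (t1 + t2 - t3 + t4 + t5) t6, norm_add_le (t1 + t2 - t3 + t4) t5,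
      norm_add_le (t1 + t2 - t3) t4, norm_sub_le (t1 + t2) t3, norm_add_le t1 t2]

/-- The colour of an item: an index together with a set of other indices. -/
def colOf (m : ℕ) {n : ℕ} (x : Fin n × Finset (Fin n)) : Fin (m + 1) × Fin (m + 1) :=
  (⟨min x.2.card m, by omega⟩, ⟨min (x.2.filter fun i => i < x.1).card m, by omega⟩)

/-- The extension by zero of the units outside `s`. -/
def offUnits {n : ℕ} (a : Fin n → C) (s : Finset (Fin n)) (k : ℕ) : C :=
  if h : k < n then if (⟨k, h⟩ : Fin n) ∈ s then 0 else a ⟨k, h⟩ else 0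

set_option maxHeartbeats 1600000 in
/-- The coloured pieces. -/
theorem exists_coloured {m : ℕ} (hD : CoverDim C m) {b : C} (hb : 0 ≤ b) (O : Set C)
    (hO0 : ∀ o ∈ O, 0 ≤ o) (hbO : b ∈ idealSpan O) (G : C → C)
    (hG : ∀ o ∈ O, ‖G o‖ ≤ 1 ∧ G o * o = o) {ε : ℝ} (hε : 0 < ε) :
    ∃ (n : ℕ) (o : Fin n → C), (∀ l, o l ∈ O) ∧ ∀ (S : Finset C) (ξ : ℝ), 0 < ξ →
      ∃ H : Fin n × Finset (Fin n) → C, (∀ x, ‖H x‖ ≤ 1) ∧
        (∀ x, ∀ s ∈ S, ‖H x * s - s * H x‖ ≤ ξ ∧ ‖star (H x) * s - s * star (H x)‖ ≤ ξ) ∧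
        (∀ x y, x ≠ y → colOf m x = colOf m y →
          ‖star (H x) * H y‖ ≤ ξ ∧ ‖H x * star (H y)‖ ≤ ξ) ∧
        ∀ J : Submodule ℂ C, IsStarIdeal J → (∀ x, qn J (H x * G (o x.1)) ≤ 1 / 2) →
          cut ε b ∈ J := by
  classical
  obtain ⟨n, z, δ, hδ, hz0, hzO, hcov, hmult⟩ := hD b hb O hO0 hbO ε hε
  choose o ho hzo using hzO
  set η : ℝ := δ / (4 * ((n : ℝ) + 4) ^ (m + 2)) with hη
  have hη0 : 0 < η := by positivity
  choose M p q hpq using fun l => exists_finite_sum (hzo l) hη0
  set Z := 1 + ∑ l, ‖z l‖ with hZ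
  have hZ1 : 1 ≤ Z := by
    rw [hZ]; linarith [Finset.sum_nonneg (s := Finset.univ) fun l _ => norm_nonneg (z l)]
  have hzZ : ∀ l, ‖z l‖ ≤ Z := fun l => by
    rw [hZ]
    linarith [Finset.single_le_sum (f := fun l => ‖z l‖) (fun j _ => norm_nonneg _)
      (Finset.mem_univ l)]
  set R := ∑ l, ∑ i, (‖p l i‖ + 1) * (‖q l i‖ * ‖o l‖) with hR
  have hR0 : 0 ≤ R := Finset.sum_nonneg fun l _ => Finset.sum_nonneg fun i _ => by positivity
  refine ⟨n, o, ho, fun S ξ hξ => ?_⟩
  set N : ℝ := (n : ℝ) + 1 with hN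
  have hN1 : 1 ≤ N := by rw [hN]; linarith [Nat.cast_nonneg (α := ℝ) n]
  set ξ0 := min ξ η / (40 * N ^ 3 * (R + Z)) with hξ0
  have hξ0p : 0 < ξ0 := div_pos (lt_min hξ hη0) (by positivity)
  have hbig : 40 * N ^ 3 * (R + Z) * ξ0 ≤ η ∧ 40 * N ^ 3 * (R + Z) * ξ0 ≤ ξ := by
    rw [hξ0, mul_div_cancel₀ _ (by positivity)]
    exact ⟨min_le_right _ _, min_le_left _ _⟩
  set S' : Finset C := S ∪ S.image star ∪ Finset.univ.image (fun l => G (o l)) ∪
    Finset.univ.biUnion fun l => Finset.univ.image (p l) with hS'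
  obtain ⟨A, hA01, hAA, hAS, hAn, hAb, hAs⟩ :=
    exists_levels (m := m) z hz0 hmult (T := 3 * m + 4) (by omega) S' hξ0p
  have hAsa : ∀ t i, star (A t i) = A t i := fun t i => (IsSelfAdjoint.of_nonneg (hA01 t i).1).star_eq
  have hA1 : ∀ t i, ‖A t i‖ ≤ 1 := fun t i => (hA01 t i).2
  have hAn' : ∀ t t', t < t' → t' < 3 * m + 4 → ∀ i, ‖A t i * A t' i - A t i‖ ≤ ξ0 :=
    fun t t' h1 h2 i => by
      rw [← norm_star, star_sub, star_mul, hAsa, hAsa]; exact hAn t t' h1 h2 i
  set L := List.finRange n with hL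
  have hLn : L.Nodup := List.nodup_finRange n
  have hLN : (L.length : ℝ) ≤ N := by rw [hL, List.length_finRange, hN]; linarith
  have hLm : ∀ i : Fin n, i ∈ L := fun i => List.mem_finRange i
  set Ψ : Finset (Fin n) → ℕ → ℕ → C := fun s t k => offUnits (A t) s k with hΨ
  have hΨ01 : ∀ s t k, 0 ≤ Ψ s t k ∧ ‖Ψ s t k‖ ≤ 1 := fun s t k => by
    simp only [hΨ, offUnits]
    split_ifs <;> first | exact hA01 _ _ | simp
  set mk : ℕ → ℕ → Fin n × Finset (Fin n) → C := fun t t' x =>
    gw (Ψ (insert x.1 x.2) t') (pl (A t) x.2 (A t x.1) L) n with hmk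
  have hmk1 : ∀ t t' x, ‖mk t t' x‖ ≤ 1 := fun t t' x =>
    (norm_gw_le (hΨ01 _ _) _ _).trans ((norm_pl_le (hA1 t) _ _ _).trans (hA1 t x.1))
  -- commutation with elements commuting with the levels
  set P : C → ℝ → Prop := fun c e => ∀ t < 3 * m + 4, ∀ i, ‖c * A t i - A t i * c‖ ≤ e with hP
  have hPA : ∀ t < 3 * m + 4, ∀ i, P (A t i) ξ0 := fun t ht i t' ht' j => hAA t ht t' ht' i j
  have hPΨ : ∀ c e, 0 ≤ e → P c e → ∀ s, ∀ t < 3 * m + 4, ∀ k,
      ‖c * Ψ s t k - Ψ s t k * c‖ ≤ e := fun c e he hc s t ht k => by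
    simp only [hΨ, offUnits]
    split_ifs <;> first | exact hc t ht _ | simpa using he
  have hmkc : ∀ c e, 0 ≤ e → P c e → ∀ t < 3 * m + 4, ∀ t' < 3 * m + 4, ∀ x,
      ‖c * mk t t' x - mk t t' x * c‖ ≤ 2 * N ^ 2 * e := fun c e he hc t ht t' ht' x => by
    have h1 := norm_comm_pl_le (hA1 t) (q := c) (X := A t x.1) he x.2 (fun i _ => hc t ht i) L
    have h2 : ‖c * pl (A t) x.2 (A t x.1) L - pl (A t) x.2 (A t x.1) L * c‖ ≤ 2 * N * e := by
      have h3 : (L.length : ℝ) * e * ‖A t x.1‖ ≤ N * e :=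
        (mul_le_of_le_one_right (by positivity) (hA1 t x.1)).trans
          (mul_le_mul_of_nonneg_right hLN he)
      linarith [hc t ht x.1, le_mul_of_one_le_left he hN1]
    refine (norm_comm_gw_le (hΨ01 _ _) ((norm_pl_le (hA1 t) _ _ _).trans (hA1 t x.1)) h2 n
      fun k _ => (hPΨ c e he hc _ t' ht' k).trans ?_).trans (le_of_eq (by rw [hN]; ring))
    linarith [le_mul_of_one_le_left he hN1]
  have hmks : ∀ t < 3 * m + 4, ∀ t' < 3 * m + 4, ∀ x,
      ‖star (mk t t' x) - mk t t' x‖ ≤ 4 * N ^ 3 * ξ0 := fun t ht t' ht' x => by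
    have hn : (n : ℝ) ≤ N := by rw [hN]; linarith
    have hP0 : ∀ (s : Finset (Fin n)) (u : ℕ), u < 3 * m + 4 → ∀ k, P (Ψ s u k) ξ0 :=
      fun s u hu k t ht i => by
        rw [norm_sub_rev]; exact hPΨ _ _ hξ0p.le (hPA t ht i) s u hu k
    have h1 := norm_star_pl_sub_le (hA1 t) (hAsa t) (X := A t x.1) x.2 L (e := 2 * N * ξ0)
      (fun i _ L' hL' => by
        refine (norm_comm_pl_le (hA1 t) hξ0p.le x.2 (fun j _ => hAA t ht t ht i j) L').trans ?_
        have h3 : (L'.length : ℝ) * ξ0 * ‖A t x.1‖ ≤ N * ξ0 :=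
          (mul_le_of_le_one_right (by positivity) (hA1 t x.1)).trans
            (mul_le_mul_of_nonneg_right ((Nat.cast_le.2 hL').trans hLN) hξ0p.le)
        linarith [hAA t ht t ht i x.1, le_mul_of_one_le_left hξ0p.le hN1])
      (by positivity)
    rw [hAsa, sub_self, norm_zero, zero_add] at h1
    refine (norm_star_gw_sub_le (hΨ01 _ _) n (e := 2 * N ^ 2 * ξ0) fun k hk => ?_).trans ?_
    · refine (norm_comm_gw_le (hΨ01 _ _) ((norm_pl_le (hA1 t) _ _ _).trans (hA1 t x.1))
        (ξ := 2 * N * ξ0) ?_ k fun k' _ => (hPΨ _ _ hξ0p.le (hP0 _ t' ht' k) _ t' ht' k').trans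
          (by linarith [le_mul_of_one_le_left hξ0p.le hN1])).trans ?_
      · refine (norm_comm_pl_le (hA1 t) hξ0p.le x.2 (fun j _ => hP0 _ t' ht' k t ht j) L).trans ?_
        have h3 : (L.length : ℝ) * ξ0 * ‖A t x.1‖ ≤ N * ξ0 :=
          (mul_le_of_le_one_right (by positivity) (hA1 t x.1)).trans
            (mul_le_mul_of_nonneg_right hLN hξ0p.le)
        linarith [hP0 (insert x.1 x.2) t' ht' k t ht x.1, le_mul_of_one_le_left hξ0p.le hN1]
      · have : (k : ℝ) + 1 ≤ N := by
          rw [hN]; linarith [(Nat.cast_le (α := ℝ)).2 hk.le]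
        exact (mul_le_mul_of_nonneg_right this (by positivity)).trans_eq (by ring)
    · have h4 : (L.length : ℝ) * (2 * N * ξ0) ≤ 2 * N ^ 2 * ξ0 :=
        (mul_le_mul_of_nonneg_right hLN (by positivity)).trans (le_of_eq (by ring))
      have h5 : (n : ℝ) * (2 * N ^ 2 * ξ0) ≤ 2 * N ^ 3 * ξ0 :=
        (mul_le_mul_of_nonneg_right hn (by positivity)).trans (le_of_eq (by ring))
      have h6 : 2 * N ^ 2 * ξ0 ≤ 2 * N ^ 3 * ξ0 := by
        have := mul_le_mul_of_nonneg_right (pow_le_pow_right₀ hN1 (by norm_num : 2 ≤ 3)) hξ0p.le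
        linarith
      linarith
  have habs : ∀ t < 3 * m + 4, ∀ t' < 3 * m + 4, ∀ x c e, 0 ≤ e → ξ0 ≤ e → ‖c‖ ≤ 1 → P c e →
      ∀ i ∈ insert x.1 x.2, ∀ lam : ℝ, |lam| ≤ 1 →
      ‖c * mk t t' x - lam • mk t t' x‖ ≤ ‖c * A t i - lam • A t i‖ + 4 * N * e :=
    fun t ht t' ht' x c e he hξe hc1 hc i hi lam hlam => by
      have h1 := norm_pl_absorb_le (hA1 t) (q := c) he hc1 lam hlam hi (fun j _ => hc t ht j)
        (fun j _ => (hAA t ht t ht i j).trans hξe) L hLn (hLm i)
      have h2 := norm_gw_absorb_le (hΨ01 (insert x.1 x.2) t') (q := c)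
        (X := pl (A t) x.2 (A t x.1) L) he lam (j := n)
        (fun k _ => hPΨ c e he hc _ t' ht' k)
      refine h2.trans ?_
      have h3 : (n : ℝ) * e * ‖pl (A t) x.2 (A t x.1) L‖ ≤ N * e :=
        (mul_le_of_le_one_right (by positivity) ((norm_pl_le (hA1 t) _ _ _).trans
          (hA1 t x.1))).trans (mul_le_mul_of_nonneg_right (by rw [hN]; linarith) he)
      linarith [mul_le_mul_of_nonneg_right hLN he]
  have hkill : ∀ t, ∀ t' < 3 * m + 4, ∀ x c, ‖c‖ ≤ 1 → ∀ i, i ∉ insert x.1 x.2 →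
      ‖c * A t' i - c‖ ≤ ξ0 → ‖c * mk t t' x‖ ≤ N * ξ0 := fun t t' ht' x c hc1 i hi hc => by
    obtain ⟨_, _, _, h⟩ := norm_mul_gw_le (hΨ01 (insert x.1 x.2) t') (y := c) (i := (i : ℕ))
      (ξ := ξ0) ((norm_pl_le (hA1 t) x.2 (A t x.1) L).trans (hA1 t x.1))
      (by simp only [hΨ, offUnits, dif_pos i.isLt, Fin.eta, if_neg hi]; exact hc) n i.isLt
      fun k _ => by
        have : Ψ (insert x.1 x.2) t' i = A t' i := by
          simp only [hΨ, offUnits, dif_pos i.isLt, Fin.eta, if_neg hi]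
        rw [this]; exact hPΨ _ _ hξ0p.le (hPA t' ht' i) _ t' ht' k
    refine h.trans (mul_le_mul_of_nonneg_right ?_ hξ0p.le)
    rw [hN]
    linarith [mul_le_of_le_one_left (Nat.cast_nonneg (α := ℝ) n) hc1]
  set rel : Fin n × Finset (Fin n) → Prop := fun x => x.1 ∉ x.2 ∧ x.2.card ≤ m with hrel
  set H : Fin n × Finset (Fin n) → C := fun x =>
    if rel x then mk (3 * x.2.card + 1) (3 * x.2.card + 2) x else 0 with hH
  have hPS : ∀ s ∈ S', P s ξ0 := fun s hs t ht i => by
    rw [norm_sub_rev]; exact hAS t ht i s hs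
  have hN23 : N ^ 2 ≤ N ^ 3 := pow_le_pow_right₀ hN1 (by norm_num)
  have hN3 : N ^ 2 * ξ0 ≤ N ^ 3 * ξ0 := mul_le_mul_of_nonneg_right hN23 hξ0p.le
  have hξsmall : 40 * (N ^ 3 * ξ0) ≤ ξ := by
    refine le_trans ?_ hbig.2
    rw [show 40 * N ^ 3 * (R + Z) * ξ0 = (R + Z) * (40 * (N ^ 3 * ξ0)) by ring]
    exact le_mul_of_one_le_left (by positivity) (by linarith)
  refine ⟨H, fun x => ?_, fun x s hs => ?_, fun x y hxy hcol => ?_, fun J hJ hJH => ?_⟩
  · simp only [hH]; split_ifs
    · exact hmk1 _ _ _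
    · simp
  · simp only [hH]
    split_ifs with hx
    · obtain ⟨hx1, hx2⟩ := hx
      have h : ∀ c ∈ S', ‖mk (3 * x.2.card + 1) (3 * x.2.card + 2) x * c -
          c * mk (3 * x.2.card + 1) (3 * x.2.card + 2) x‖ ≤ ξ := fun c hc => by
        rw [norm_sub_rev]
        refine (hmkc c ξ0 hξ0p.le (hPS c hc) _ (by omega) _ (by omega) x).trans ?_
        linarith [show 0 ≤ N ^ 3 * ξ0 by positivity]
      refine ⟨h s (by simp [hS', hs]), ?_⟩
      have h1 := h (star s) (by
        simp only [hS', Finset.mem_union, Finset.mem_image]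
        exact Or.inl (Or.inl (Or.inr ⟨s, hs, rfl⟩)))
      rw [← norm_star] at h1
      rw [norm_sub_rev]
      simpa only [star_sub, star_mul, star_star] using h1
    · simp [hξ.le]
  · simp only [hH]
    split_ifs with hx hy
    · obtain ⟨hx1, hx2⟩ := hx
      obtain ⟨hy1, hy2⟩ := hy
      simp only [colOf, Prod.mk.injEq, Fin.mk.injEq] at hcol
      obtain ⟨hk, hrank⟩ := hcol
      have hk' : x.2.card = y.2.card := by omega
      have hsne : insert x.1 x.2 ≠ insert y.1 y.2 := by
        intro hs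
        apply hxy
        have hl : x.1 = y.1 := by
          by_contra hne
          have hfe : ∀ (l : Fin n) (T : Finset (Fin n)),
              T.filter (fun i => i < l) = (insert l T).filter (fun i => i < l) := fun l T => by
            ext i
            simp only [Finset.mem_filter, Finset.mem_insert]
            constructor
            · exact fun h => ⟨Or.inr h.1, h.2⟩
            · rintro ⟨h | h, h'⟩
              · exact absurd h h'.ne
              · exact ⟨h, h'⟩
          have hr : (x.2.filter fun i => i < x.1).card = (y.2.filter fun i => i < y.1).card := by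
            have h1 := Finset.card_filter_le x.2 fun i => i < x.1
            have h2 := Finset.card_filter_le y.2 fun i => i < y.1
            omega
          rw [hfe x.1 x.2, hfe y.1 y.2, hs] at hr
          rcases lt_or_gt_of_ne hne with h | h
          · refine absurd hr (ne_of_lt (Finset.card_lt_card ⟨fun i hi => ?_, fun hsub => ?_⟩))
            · rw [Finset.mem_filter] at hi ⊢; exact ⟨hi.1, hi.2.trans h⟩
            · have := hsub (Finset.mem_filter.2 ⟨hs ▸ Finset.mem_insert_self x.1 x.2, h⟩)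
              exact lt_irrefl _ (Finset.mem_filter.1 this).2
          · refine absurd hr.symm (ne_of_lt (Finset.card_lt_card ⟨fun i hi => ?_, fun hsub => ?_⟩))
            · rw [Finset.mem_filter] at hi ⊢; exact ⟨hi.1, hi.2.trans h⟩
            · have := hsub (Finset.mem_filter.2 ⟨Finset.mem_insert_self y.1 y.2, h⟩)
              exact lt_irrefl _ (Finset.mem_filter.1 this).2
        refine Prod.ext hl ?_
        have := congrArg (fun u => Finset.erase u x.1) hs
        rwa [Finset.erase_insert hx1, hl, Finset.erase_insert hy1] at this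
      obtain ⟨i, hiy, hix⟩ : ∃ i ∈ insert y.1 y.2, i ∉ insert x.1 x.2 := by
        by_contra hcon
        refine hsne (Finset.eq_of_subset_of_card_le (fun i hi => ?_) ?_).symm
        · by_contra hi'; exact hcon ⟨i, hi, hi'⟩
        · rw [Finset.card_insert_of_notMem hx1, Finset.card_insert_of_notMem hy1, hk']
      set k := x.2.card with hkdef
      rw [← hk']
      set Hx := mk (3 * k + 1) (3 * k + 2) x
      set Hy := mk (3 * k + 1) (3 * k + 2) y
      have h1 : ‖A (3 * k + 1) i * Hx‖ ≤ N * ξ0 := hkill _ _ (by omega) x _ (hA1 _ _) i hix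
        (hAn' _ _ (by omega) (by omega) i)
      have hPx : P Hx (2 * N ^ 2 * ξ0) := fun t ht j => by
        rw [norm_sub_rev]
        exact hmkc _ ξ0 hξ0p.le (hPA t ht j) _ (by omega) _ (by omega) x
      have h2 := habs (3 * k + 1) (by omega) (3 * k + 2) (by omega) y Hx (2 * N ^ 2 * ξ0)
        (by positivity) (by linarith [le_mul_of_one_le_left hξ0p.le (one_le_pow₀ (n := 2) hN1)])
        (hmk1 _ _ _) hPx i hiy 0 (by simp)
      simp only [zero_smul, sub_zero] at h2
      have h3 : ‖Hx * A (3 * k + 1) i‖ ≤ 3 * N ^ 3 * ξ0 := by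
        have := norm_le_norm_add_norm_sub' (Hx * A (3 * k + 1) i) (A (3 * k + 1) i * Hx)
        have := hPx (3 * k + 1) (by omega) i
        linarith [mul_le_mul_of_nonneg_right (le_self_pow₀ hN1 (by norm_num : 3 ≠ 0)) hξ0p.le]
      have h4 : ‖Hx * Hy‖ ≤ 11 * N ^ 3 * ξ0 := by
        refine h2.trans ?_
        linarith
      have hsx := hmks (3 * k + 1) (by omega) (3 * k + 2) (by omega) x
      have hsy := hmks (3 * k + 1) (by omega) (3 * k + 2) (by omega) y
      constructor
      · have e : star Hx * Hy = (star Hx - Hx) * Hy + Hx * Hy := by rw [sub_mul]; abel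
        rw [e]
        linarith [norm_add_le ((star Hx - Hx) * Hy) (Hx * Hy),
          (norm_mul_le (star Hx - Hx) Hy).trans
            (mul_le_of_le_one_right (norm_nonneg _) (hmk1 _ _ _))]
      · have e : Hx * star Hy = Hx * (star Hy - Hy) + Hx * Hy := by rw [mul_sub]; abel
        rw [e]
        linarith [norm_add_le (Hx * (star Hy - Hy)) (Hx * Hy),
          (norm_mul_le Hx (star Hy - Hy)).trans
            (mul_le_of_le_one_left (norm_nonneg _) (hmk1 _ _ _))]
    · simp [hξ.le]
    · simp [hξ.le]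
    · simp [hξ.le]
  -- the pieces see everything
  have hZξ : 40 * N ^ 3 * Z * ξ0 ≤ η := by
    refine le_trans ?_ hbig.1
    linarith [show 0 ≤ 40 * N ^ 3 * R * ξ0 by positivity]
  have hhz : ∀ x, rel x → qn J (mk (3 * x.2.card) (3 * x.2.card + 3) x * z x.1) ≤ 2 * η := by
    rintro x hx
    have hJx := hJH x
    simp only [hH, if_pos hx] at hJx
    obtain ⟨hx1, hx2⟩ := hx
    set k := x.2.card with hkdef
    set h := mk (3 * k) (3 * k + 3) x
    set H' := mk (3 * k + 1) (3 * k + 2) x
    set l := x.1 with hl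
    have hhc : ∀ c, P c ξ0 → ‖c * h - h * c‖ ≤ 2 * N ^ 2 * ξ0 := fun c hc =>
      hmkc c ξ0 hξ0p.le hc _ (by omega) _ (by omega) x
    have hfix : ∀ i ∈ insert l x.2, ‖A (3 * k + 1) i * h - h‖ ≤ 5 * N * ξ0 := fun i hi => by
      have h1 := habs (3 * k) (by omega) (3 * k + 3) (by omega) x (A (3 * k + 1) i) ξ0 hξ0p.le
        le_rfl (hA1 _ _) (hPA _ (by omega) i) i hi 1 (by simp)
      simp only [one_smul] at h1
      linarith [hAn (3 * k) (3 * k + 1) (by omega) (by omega) i,
        le_mul_of_one_le_left hξ0p.le hN1]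
    have hHh : ‖H' * h - h‖ ≤ 11 * N ^ 2 * ξ0 := by
      have e : H' * h = gw (Ψ (insert l x.2) (3 * k + 2))
          (pl (A (3 * k + 1)) x.2 (A (3 * k + 1) l * h) L) n := by
        rw [pl_mul, gw_mul]
      rw [e]
      set X := pl (A (3 * k + 1)) x.2 (A (3 * k + 1) l * h) L
      have h1 : ‖X - pl (A (3 * k + 1)) x.2 h L‖ ≤ 5 * N * ξ0 := by
        rw [← pl_sub]
        exact (norm_pl_le (hA1 _) _ _ _).trans (hfix l (Finset.mem_insert_self _ _))
      have h2 := norm_pl_fix_le (hA1 (3 * k + 1)) x.2 (X := h) (e := 5 * N * ξ0) (by positivity)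
        (fun i hi => hfix i (Finset.mem_insert_of_mem hi)) L
      have h3 := norm_gw_le (hΨ01 (insert l x.2) (3 * k + 2)) (X - h) n
      rw [gw_sub] at h3
      have h4 := norm_gw_fix_le (hΨ01 (insert l x.2) (3 * k + 2)) (G := h) (e := N * ξ0) n
        fun i hi => by
          simp only [hΨ, offUnits, dif_pos hi]
          split_ifs with hin
          · simp; positivity
          · exact hkill _ _ (by omega) x _ (hA1 _ _) ⟨i, hi⟩ hin
              (hAn' _ _ (by omega) (by omega) _)
      have h5 : (L.length : ℝ) * (5 * N * ξ0) ≤ 5 * N ^ 2 * ξ0 :=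
        (mul_le_mul_of_nonneg_right hLN (by positivity)).trans (le_of_eq (by ring))
      have h6 : (n : ℝ) * (N * ξ0) ≤ N ^ 2 * ξ0 :=
        (mul_le_mul_of_nonneg_right (by rw [hN]; linarith : (n : ℝ) ≤ N) (by positivity)).trans
          (le_of_eq (by ring))
      linarith [norm_sub_le_norm_sub_add_norm_sub X (pl (A (3 * k + 1)) x.2 h L) h,
        norm_sub_le_norm_sub_add_norm_sub (gw (Ψ (insert l x.2) (3 * k + 2)) X n)
          (gw (Ψ (insert l x.2) (3 * k + 2)) h n) h,
        mul_le_mul_of_nonneg_right (le_self_pow₀ hN1 two_ne_zero) hξ0p.le]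
    have hoG := (hG _ (ho l)).2
    have hq : qn J (h * o l) ≤ 26 * N ^ 2 * ξ0 * ‖o l‖ := by
      set g := G (o l)
      have e : h * o l = (h - H' * h) * o l + H' * (h * g - g * h) * o l +
          H' * g * (h * o l) := by
        calc h * o l = (h - H' * h) * o l + H' * (h * (g * o l)) := by
              rw [hoG, sub_mul, mul_assoc]; abel
          _ = _ := by simp only [sub_mul, mul_sub, mul_assoc]; abel
      have b1 : ‖(h - H' * h) * o l‖ ≤ 11 * N ^ 2 * ξ0 * ‖o l‖ :=
        (norm_mul_le _ _).trans (mul_le_mul_of_nonneg_right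
          ((norm_sub_rev _ _).le.trans hHh) (norm_nonneg _))
      have b2 : ‖H' * (h * g - g * h) * o l‖ ≤ 2 * N ^ 2 * ξ0 * ‖o l‖ := by
        refine (norm_mul_le _ _).trans (mul_le_mul_of_nonneg_right ?_ (norm_nonneg _))
        refine (norm_mul_le _ _).trans ((mul_le_of_le_one_left (norm_nonneg _) (hmk1 _ _ _)).trans
          ((norm_sub_rev _ _).le.trans (hhc g (hPS g ?_))))
        simp only [hS', Finset.mem_union, Finset.mem_image]
        exact Or.inl (Or.inr ⟨l, Finset.mem_univ _, rfl⟩)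
      have h1 := qn_add_le (J := J) ((h - H' * h) * o l + H' * (h * g - g * h) * o l)
        (H' * g * (h * o l))
      rw [← e] at h1
      have h2 := qn_le_norm (J := J) ((h - H' * h) * o l + H' * (h * g - g * h) * o l)
      have h3 := (qn_mul_le hJ (H' * g) (h * o l)).trans
        (mul_le_mul_of_nonneg_right hJx (qn_nonneg _))
      linarith [norm_add_le ((h - H' * h) * o l) (H' * (h * g - g * h) * o l)]
    have e : h * z l = h * (z l - ∑ i, p l i * o l * q l i) +
        ∑ i, ((h * p l i - p l i * h) * (o l * q l i) + p l i * (h * o l) * q l i) := by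
      have : ∀ i, (h * p l i - p l i * h) * (o l * q l i) + p l i * (h * o l) * q l i =
          h * (p l i * o l * q l i) := fun i => by
        simp only [sub_mul, mul_assoc]; abel
      simp only [this, ← Finset.mul_sum, mul_sub]
      abel
    have h1 := qn_add_le (J := J) (h * (z l - ∑ i, p l i * o l * q l i))
      (∑ i, ((h * p l i - p l i * h) * (o l * q l i) + p l i * (h * o l) * q l i))
    rw [← e] at h1
    have h2 := (qn_le_norm (J := J) (h * (z l - ∑ i, p l i * o l * q l i))).trans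
      ((norm_mul_le _ _).trans ((mul_le_of_le_one_left (norm_nonneg _) (hmk1 _ _ _)).trans
        (hpq l).le))
    have h3 : ∀ i ∈ Finset.univ, qn J ((h * p l i - p l i * h) * (o l * q l i) +
        p l i * (h * o l) * q l i) ≤ 26 * N ^ 2 * ξ0 * ((‖p l i‖ + 1) * (‖q l i‖ * ‖o l‖)) :=
      fun i _ => by
        refine (qn_add_le _ _).trans ?_
        have b1 : qn J ((h * p l i - p l i * h) * (o l * q l i)) ≤
            2 * N ^ 2 * ξ0 * (‖o l‖ * ‖q l i‖) := by
          refine (qn_le_norm _).trans ((norm_mul_le _ _).trans (mul_le_mul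
            ((norm_sub_rev _ _).le.trans (hhc _ (hPS _ ?_))) (norm_mul_le _ _) (norm_nonneg _)
            (by positivity)))
          simp only [hS', Finset.mem_union, Finset.mem_biUnion, Finset.mem_image]
          exact Or.inr ⟨l, Finset.mem_univ _, i, Finset.mem_univ _, rfl⟩
        have b2 : qn J (p l i * (h * o l) * q l i) ≤
            ‖p l i‖ * (26 * N ^ 2 * ξ0 * ‖o l‖) * ‖q l i‖ :=
          (qn_mul_le hJ _ _).trans (mul_le_mul ((qn_mul_le hJ _ _).trans
            (mul_le_mul (qn_le_norm _) hq (qn_nonneg _) (norm_nonneg _))) (qn_le_norm _)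
            (qn_nonneg _) (by positivity))
        linarith [show 0 ≤ N ^ 2 * ξ0 * (‖q l i‖ * ‖o l‖) by positivity]
    have h4 : qn J (∑ i, ((h * p l i - p l i * h) * (o l * q l i) + p l i * (h * o l) * q l i)) ≤
        26 * N ^ 2 * ξ0 * R := by
      refine le_trans (le_trans ?_ (Finset.sum_le_sum h3)) ?_
      · induction (Finset.univ : Finset (Fin (M l))) using Finset.induction_on with
        | empty => simpa using qn_le_norm (J := J) (0 : C)
        | insert a s ha ih =>
          rw [Finset.sum_insert ha, Finset.sum_insert ha]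
          exact (qn_add_le _ _).trans (add_le_add le_rfl ih)
      · rw [← Finset.mul_sum, hR]
        exact mul_le_mul_of_nonneg_left (Finset.single_le_sum
          (f := fun l => ∑ i, (‖p l i‖ + 1) * (‖q l i‖ * ‖o l‖))
          (fun l _ => Finset.sum_nonneg fun i _ => by positivity) (Finset.mem_univ l))
          (by positivity)
    have h5 : 26 * N ^ 2 * ξ0 * R ≤ η := by
      refine le_trans ?_ hbig.1
      have := mul_le_mul_of_nonneg_right hN3 (show 0 ≤ 26 * R by positivity)
      linarith [show 0 ≤ N ^ 3 * ξ0 * Z by positivity, show 0 ≤ N ^ 3 * ξ0 * R by positivity]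
    linarith
  -- descent
  have hdesc : ∀ d k, k + d = m + 1 → ∀ s : Finset (Fin n), s.card = k + 1 → ∀ l ∈ s,
      qn J (pl (A (3 * k)) s (z l) L) ≤ ((n : ℝ) + 4) ^ d * η := by
    intro d
    induction d with
    | zero =>
      intro k hk s hs l _
      rw [add_zero] at hk
      subst hk
      have h := hAb s (by omega) l
      rw [show 3 * m + 4 - 1 = 3 * (m + 1) by omega] at h
      rw [pow_zero, one_mul]
      refine (qn_le_norm _).trans (h.trans ?_)
      refine le_trans ?_ hZξ
      exact le_mul_of_one_le_left hξ0p.le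
        (one_le_mul_of_one_le_of_one_le (by linarith [one_le_pow₀ (n := 3) hN1]) hZ1)
    | succ d ih =>
      intro k hk s hs l hl
      set P0 := pl (A (3 * k)) s (z l) L with hP0
      set x : Fin n × Finset (Fin n) := (l, s.erase l)
      have hxs : insert x.1 x.2 = s := Finset.insert_erase hl
      have hxk : x.2.card = k := by
        show (s.erase l).card = k
        rw [Finset.card_erase_of_mem hl, hs]; omega
      have hz := hhz x ⟨Finset.notMem_erase l s, by omega⟩
      rw [hxk] at hz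
      have h1 := norm_pl_insert_right_le (hA1 (3 * k)) (X := z l) hξ0p.le (i := l)
        (T := s.erase l) (fun j _ => hAA _ (by omega) _ (by omega) l j) (Finset.notMem_erase l s) L
        hLn (hLm l)
      rw [Finset.insert_erase hl] at h1
      have hh : mk (3 * k) (3 * k + 3) x * z l =
          gw (Ψ s (3 * k + 3)) (pl (A (3 * k)) (s.erase l) (A (3 * k) l * z l) L) n := by
        simp only [hmk, hxs]
        rw [pl_mul, gw_mul]
      have hnL : 2 * (L.length : ℝ) * ξ0 * ‖z l‖ ≤ 2 * N * ξ0 * Z :=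
        mul_le_mul (mul_le_mul_of_nonneg_right (mul_le_mul_of_nonneg_left hLN zero_le_two)
          hξ0p.le) (hzZ l) (norm_nonneg _) (by positivity)
      have h2 : qn J (gw (Ψ s (3 * k + 3)) P0 n) ≤ 2 * η + 2 * N * ξ0 * Z := by
        have h3 := norm_gw_le (hΨ01 s (3 * k + 3))
          (P0 - pl (A (3 * k)) (s.erase l) (A (3 * k) l * z l) L) n
        rw [gw_sub, ← hh] at h3
        linarith [qn_le_norm_of_sub (J := J) (h3.trans h1)]
      have h4 := qn_le_qn_gw_add (hΨ01 s (3 * k + 3)) hJ hξ0p.le (X := P0) n fun i _ j _ =>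
        hPΨ _ _ hξ0p.le (fun t ht a => by
          rw [norm_sub_rev]; exact hPΨ _ _ hξ0p.le (hPA t ht a) s _ (by omega) i) s _ (by omega) j
      have hterm : ∀ i ∈ Finset.range n,
          qn J (Ψ s (3 * k + 3) i * P0) + (n : ℝ) * ξ0 * ‖P0‖ ≤ ((n : ℝ) + 4) ^ d * η + 9 * (N ^ 2 * Z * ξ0) := by
        intro i hi
        rw [Finset.mem_range] at hi
        have hP0n : (n : ℝ) * ξ0 * ‖P0‖ ≤ N * ξ0 * Z :=
          mul_le_mul (mul_le_mul_of_nonneg_right (by rw [hN]; linarith) hξ0p.le)
            ((norm_pl_le (hA1 _) _ _ _).trans (hzZ l)) (norm_nonneg _) (by positivity)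
        have hN2 : N * ξ0 * Z ≤ N ^ 2 * Z * ξ0 := by
          have := mul_le_mul_of_nonneg_right (le_self_pow₀ hN1 (by norm_num : 2 ≠ 0))
            (show 0 ≤ ξ0 * Z by positivity)
          linarith
        have hE0 : 0 ≤ ((n : ℝ) + 4) ^ d * η := by positivity
        simp only [hΨ, offUnits, dif_pos hi]
        split_ifs with his
        · rw [zero_mul, (qn_eq_zero hJ).2 (zero_mem J)]
          linarith [show 0 ≤ N ^ 2 * Z * ξ0 by positivity]
        set j : Fin n := ⟨i, hi⟩
        set a := A (3 * k)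
        set b := A (3 * k + 3)
        set Q := pl b s (z l) L
        have hab := norm_pl_comp_le (a := a) (b := b) (hA1 _) (hA1 _) hξ0p.le
          (fun i j => hAA _ (by omega) _ (by omega) i j)
          (fun i j => hAA _ (by omega) _ (by omega) i j)
          (fun i j => hAA _ (by omega) _ (by omega) i j)
          (fun i => hAn' _ _ (by omega) (by omega) i) L hLn s (fun i _ => hLm i) (z l)
        have hc1 := norm_mul_pl_sub_le (a := a) (hA1 (3 * k)) (q := b j) (X := Q) hξ0p.le s
          (fun i _ => hAA _ (by omega) _ (by omega) j i) L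
        have hins := norm_pl_insert_le (a := b) (hA1 (3 * k + 3)) (X := z l) hξ0p.le (i := j) (T := s)
          (fun i _ => hAA _ (by omega) _ (by omega) j i) his L hLn (hLm j)
        have h5 := ih (k + 1) (by omega) (insert j s)
          (by rw [Finset.card_insert_of_notMem his, hs]) l (Finset.mem_insert_of_mem hl)
        rw [show 3 * (k + 1) = 3 * k + 3 by ring] at h5
        replace h5 : qn J (pl b (insert j s) (z l) L) ≤ ((n : ℝ) + 4) ^ d * η := h5
        have b1 : qn J (b j * P0) ≤ qn J (b j * pl a s Q L) +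
            s.card * ((4 * L.length + 1) * ξ0) * ‖z l‖ := qn_le_norm_of_sub (by
          rw [← mul_sub]
          exact (norm_mul_le _ _).trans ((mul_le_of_le_one_left (norm_nonneg _) (hA1 _ _)).trans
            ((norm_sub_rev _ _).le.trans hab)))
        have b2 : qn J (b j * pl a s Q L) ≤ qn J (b j * Q) + L.length * ξ0 * ‖Q‖ :=
          (qn_le_norm_of_sub (J := J) hc1).trans
            (add_le_add (qn_pl_le (a := a) (hA1 _) hJ s _ L) le_rfl)
        have b3 : qn J (b j * Q) ≤ qn J (pl b (insert j s) (z l) L) + L.length * ξ0 * ‖z l‖ :=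
          qn_le_norm_of_sub ((norm_sub_rev _ _).le.trans hins)
        have hsn : (s.card : ℝ) ≤ N := by
          have := Finset.card_le_univ s
          rw [Fintype.card_fin] at this
          have : (s.card : ℝ) ≤ n := by exact_mod_cast this
          rw [hN]; linarith
        have c1 : (s.card : ℝ) * ((4 * L.length + 1) * ξ0) * ‖z l‖ ≤ N * (5 * N * ξ0) * Z :=
          mul_le_mul (mul_le_mul hsn (mul_le_mul_of_nonneg_right (by linarith) hξ0p.le)
            (by positivity) (by positivity)) (hzZ l) (norm_nonneg _) (by positivity)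
        have c2 : ∀ X : C, ‖X‖ ≤ Z → (L.length : ℝ) * ξ0 * ‖X‖ ≤ N * ξ0 * Z := fun X hX =>
          mul_le_mul (mul_le_mul_of_nonneg_right hLN hξ0p.le) hX (norm_nonneg _) (by positivity)
        have c4 : N * (5 * N * ξ0) * Z = 5 * (N ^ 2 * Z * ξ0) := by ring
        show qn J (b j * P0) + (n : ℝ) * ξ0 * ‖P0‖ ≤ _
        have t1 : qn J (b j * P0) ≤ ((n : ℝ) + 4) ^ d * η +
            (s.card * ((4 * L.length + 1) * ξ0) * ‖z l‖ + L.length * ξ0 * ‖Q‖ +
              L.length * ξ0 * ‖z l‖) := by linarith only [b1, b2, b3, h5]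
        have t2 := c2 (z l) (hzZ l)
        have t3 := c2 Q ((norm_pl_le (a := b) (hA1 _) _ _ _).trans (hzZ l))
        linarith only [t1, t2, t3, c1, c4, hP0n, hN2, mul_nonneg (mul_nonneg (sq_nonneg N)
          (le_trans zero_le_one hZ1)) hξ0p.le]
      have h6 := Finset.sum_le_sum hterm
      rw [Finset.sum_const, Finset.card_range, nsmul_eq_mul] at h6
      have h7 : 1 ≤ ((n : ℝ) + 4) ^ d := one_le_pow₀ (by linarith [Nat.cast_nonneg (α := ℝ) n])
      have h8 : 2 * N * ξ0 * Z ≤ η := by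
        refine le_trans ?_ hZξ
        have h9 := mul_le_mul_of_nonneg_right (le_self_pow₀ hN1 (by norm_num : 3 ≠ 0))
          (show 0 ≤ ξ0 * Z by positivity)
        linarith [show 0 ≤ N ^ 3 * (ξ0 * Z) by positivity]
      have h10 : (n : ℝ) * η ≤ (n : ℝ) * (((n : ℝ) + 4) ^ d * η) :=
        mul_le_mul_of_nonneg_left (le_mul_of_one_le_left hη0.le h7) (Nat.cast_nonneg _)
      have h11 : η ≤ ((n : ℝ) + 4) ^ d * η := le_mul_of_one_le_left hη0.le h7
      rw [pow_succ, mul_comm (((n : ℝ) + 4) ^ d) ((n : ℝ) + 4), mul_assoc]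
      have h12 : (n : ℝ) * (9 * (N ^ 2 * Z * ξ0)) ≤ η := by
        refine le_trans ?_ hZξ
        have := mul_le_mul_of_nonneg_right (show (n : ℝ) ≤ N by rw [hN]; linarith)
          (show 0 ≤ N ^ 2 * Z * ξ0 by positivity)
        linarith [show 0 ≤ N ^ 3 * Z * ξ0 by positivity]
      linarith
  have hall : ∀ j, ∀ h : j < n, cut δ (z ⟨j, h⟩) ∈ J := by
    intro j
    induction j using Nat.strong_induction_on with
    | _ j ih =>
      intro hj
      set l : Fin n := ⟨j, hj⟩ with hl
      have h0 := hAs J hJ l fun i hi => ih i hi i.isLt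
      have h1 := hdesc (m + 1) 0 (by omega) {l} (by simp) l (Finset.mem_singleton_self l)
      have h2 := norm_pl_insert_le (hA1 0) (X := z l) hξ0p.le (i := l) (T := ∅)
        (fun j hj => absurd hj (Finset.notMem_empty j)) (Finset.notMem_empty l) L hLn (hLm l)
      rw [insert_empty_eq, pl_empty] at h2
      rw [show 3 * 0 = 0 by rfl] at h1
      have h3 : (L.length : ℝ) * ξ0 * ‖z l‖ + ξ0 ≤ η := by
        refine le_trans ?_ hZξ
        have b1 : (L.length : ℝ) * ξ0 * ‖z l‖ ≤ N * ξ0 * Z :=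
          mul_le_mul (mul_le_mul_of_nonneg_right hLN hξ0p.le) (hzZ l) (norm_nonneg _)
            (by positivity)
        have b2 := mul_le_mul_of_nonneg_right (le_self_pow₀ hN1 (by norm_num : 3 ≠ 0))
          (show 0 ≤ ξ0 * Z by positivity)
        have b3 : ξ0 ≤ N ^ 3 * Z * ξ0 :=
          le_mul_of_one_le_left hξ0p.le (one_le_mul_of_one_le_of_one_le (one_le_pow₀ hN1) hZ1)
        linarith [show 0 ≤ N ^ 3 * Z * ξ0 by positivity]
      refine cut_mem_of_qn_lt hJ (hz0 l) ?_
      have h4 : qn J (A 0 l * z l) ≤ qn J (pl (A 0) {l} (z l) L) + L.length * ξ0 * ‖z l‖ :=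
        qn_le_norm_of_sub ((norm_sub_rev _ _).le.trans h2)
      have h5 : ((n : ℝ) + 4) ^ (m + 1) * η + η < δ := by
        rw [hη]
        set B := (n : ℝ) + 4 with hB
        have hB4 : 4 ≤ B := by rw [hB]; linarith [Nat.cast_nonneg (α := ℝ) n]
        have hp : 1 ≤ B ^ (m + 1) := one_le_pow₀ (by linarith)
        rw [pow_succ _ (m + 1), ← add_one_mul, ← mul_div_assoc, div_lt_iff₀ (by positivity)]
        nlinarith [mul_le_mul_of_nonneg_left hB4 (show 0 ≤ B ^ (m + 1) by positivity)]
      linarith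
  refine idealSpan_le hJ ?_ hcov
  rintro _ ⟨l, rfl⟩
  exact hall l l.isLt

end Vale.Agent.P133
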