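import Vale.Agent.P133.W.Base
import Vale.Agent.P133.Orth.Defs

/-!
P133: almost orthogonal families of full elements in a weakly purely infinite algebra of finite
covering dimension.
-/

namespace Vale.Agent.P133

open scoped ComplexOrder

set_option linter.unusedSectionVars false

variable {C : Type*} [NonUnitalCStarAlgebra C] [PartialOrder C] [StarOrderedRing C]

theorem exists_ramp_factor {u : C} (hu : 0 ≤ u) {a b : ℝ} (ha : 0 < a) (hab : a < b) :
    ∃ h : C, cfcₙ (ramp a b) u = u * h ∧ ‖h‖ ≤ 1 / a := by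
  set g : ℝ → ℝ := fun t => ramp a b t / max t a with hg
  have hmx : ∀ t : ℝ, max t a ≠ 0 := fun t => (lt_max_of_lt_right ha).ne'
  have hgc : Continuous g := (continuous_ramp a b).div (by fun_prop) hmx
  have hg0 : g 0 = 0 := by simp [hg, ramp_zero hab ha.le]
  refine ⟨cfcₙ g u, ?_, norm_cfcₙ_le fun t _ => ?_⟩
  · have e := cfcₙ_mul (fun t : ℝ => t) g u continuous_id.continuousOn rfl hgc.continuousOn hg0
    rw [cfcₙ_id' ℝ u] at e
    rw [← e]
    refine cfcₙ_congr fun t _ => ?_
    simp only [hg]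
    rcases le_total t a with h1 | h1
    · simp [ramp_of_le hab h1]
    · rw [max_eq_left h1, mul_div_cancel₀ _ (by linarith : (t : ℝ) ≠ 0)]
  · obtain ⟨h0, h1⟩ := ramp_mem a b t
    simp only [hg]
    rw [Real.norm_of_nonneg (div_nonneg h0 (ha.le.trans (le_max_right _ _)))]
    exact div_le_div₀ zero_le_one h1 ha (le_max_right _ _)

theorem InHer.trans' {x c a : C} (hc : InHer x c) (ha : InHer c a) : InHer x a := by
  intro δ hδ
  obtain ⟨w, hw⟩ := ha (δ / 2) (by linarith)
  set L := ‖w‖ * (2 * ‖c‖ + 1) + 1 with hL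
  have hL0 : 0 < L := by positivity
  obtain ⟨k, hk⟩ := hc (min 1 (δ / (2 * L))) (lt_min one_pos (by positivity))
  set c' := x * k * x with hc'
  refine ⟨k * x * w * x * k, ?_⟩
  have e : a - x * (k * x * w * x * k) * x =
      (a - c * w * c) + ((c - c') * w * c + c' * w * (c - c')) := by
    simp only [hc', sub_mul, mul_sub, mul_assoc]; abel
  rw [e]
  have hc'n : ‖c'‖ ≤ ‖c‖ + 1 := by
    linarith [norm_le_norm_add_norm_sub' c' c, norm_sub_rev c c', min_le_left 1 (δ / (2 * L))]
  have h1 : ‖(c - c') * w * c + c' * w * (c - c')‖ ≤ δ / (2 * L) * (‖w‖ * (2 * ‖c‖ + 1)) := by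
    have hd : ‖c - c'‖ ≤ δ / (2 * L) := hk.le.trans (min_le_right _ _)
    refine (norm_add_le _ _).trans ((add_le_add (norm_mul₃_le.trans ?_)
      (norm_mul₃_le.trans ?_)).trans (le_of_eq (b := δ / (2 * L) * (‖w‖ * ‖c‖) +
        δ / (2 * L) * (‖w‖ * (‖c‖ + 1))) rfl |>.trans (le_of_eq (by ring))))
    · rw [← mul_assoc]
      exact mul_le_mul_of_nonneg_right (mul_le_mul_of_nonneg_right hd (norm_nonneg _)) (norm_nonneg _)
    · calc ‖c'‖ * ‖w‖ * ‖c - c'‖ ≤ (‖c‖ + 1) * ‖w‖ * (δ / (2 * L)) :=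
            mul_le_mul (mul_le_mul_of_nonneg_right hc'n (norm_nonneg _)) hd (norm_nonneg _)
              (by positivity)
        _ = _ := by ring
  have h2 : δ / (2 * L) * (‖w‖ * (2 * ‖c‖ + 1)) ≤ δ / 2 := by
    calc _ ≤ δ / (2 * L) * L := by gcongr; linarith
      _ = δ / 2 := by field_simp
  refine lt_of_le_of_lt (norm_add_le _ _) ?_
  linarith

/-- An element of the hereditary subalgebra of `g` is fixed by a unit of `g`. -/
theorem InHer.fix {f g a : C} (h : InHer g a) (hfg : f * g = g) : f * a = a := by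
  have hd : ∀ δ : ℝ, 0 < δ → ‖f * a - a‖ ≤ δ := fun δ hδ => by
    obtain ⟨w, hw⟩ := h (δ / (‖f‖ + 2)) (by positivity)
    have e : f * a - a = f * (a - g * w * g) - (a - g * w * g) := by
      simp only [mul_sub, ← mul_assoc, hfg]; abel
    rw [e]
    refine (norm_sub_le _ _).trans ?_
    have := norm_mul_le f (a - g * w * g)
    calc ‖f * (a - g * w * g)‖ + ‖a - g * w * g‖ ≤ (‖f‖ + 2) * (δ / (‖f‖ + 2)) := by
          nlinarith [norm_nonneg f, norm_nonneg (a - g * w * g)]
      _ = δ := mul_div_cancel₀ _ (by positivity)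
  exact sub_eq_zero.1 (norm_le_zero_iff.1 (le_of_forall_pos_le_add fun δ hδ => by
    simpa using hd δ hδ))

/-- Pairs give families of any size. The threshold does not depend on `x`. -/
theorem OrthPairs.exists_family (hP : OrthPairs C) (R : ℕ) :
    ∃ γ : ℝ, 0 < γ ∧ ∀ {x : C}, 0 ≤ x → ∀ {ε : ℝ}, 0 < ε → ∀ η : ℝ, 0 < η → ∃ a : Fin R → C,
      (∀ i, 0 ≤ a i) ∧ (∀ i, ‖a i‖ ≤ 1) ∧
      (∀ i, InHer x (a i)) ∧ (∀ i j, i ≠ j → ‖a i * a j‖ ≤ η) ∧
      ∀ J : Submodule ℂ C, IsStarIdeal J → ∀ i, qn J (a i) ≤ γ → cut ε (x * x) ∈ J := by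
  induction R with
  | zero =>
    exact ⟨1, one_pos, fun {x} _ {ε} _ η _ => ⟨Fin.elim0, fun i => i.elim0, fun i => i.elim0,
      fun i => i.elim0, fun i => i.elim0, fun _ _ i => i.elim0⟩⟩
  | succ R ih =>
    obtain ⟨γ1, hγ1, hfam⟩ := ih
    obtain ⟨γ0, hγ0, hbase⟩ := hP
    refine ⟨min γ0 γ1, lt_min hγ0 hγ1, fun {x} hx {ε} hε η hη => ?_⟩
    obtain ⟨a, c, ha0, hc0, ha1, hc1, hax, hcx, hac, hfull⟩ :=
      hbase hx hε (η * γ0 / 8) (by positivity)
    have h24 : γ0 / 4 < γ0 / 2 := by linarith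
    have h48 : γ0 / 8 < γ0 / 4 := by linarith
    set g := cfcₙ (ramp (γ0 / 4) (γ0 / 2)) c with hg
    set f := cfcₙ (ramp (γ0 / 8) (γ0 / 4)) c with hf
    have hg0 : 0 ≤ g := cfcₙ_nonneg fun t _ => (ramp_mem _ _ t).1
    have hfg : f * g = g := by
      rw [hf, hg, ← cfcₙ_mul _ _ _ (continuous_ramp _ _).continuousOn
        (ramp_zero h48 (by linarith)) (continuous_ramp _ _).continuousOn
        (ramp_zero h24 (by linarith))]
      refine cfcₙ_congr fun t _ => ?_
      rcases le_total t (γ0 / 4) with h | h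
      · rw [ramp_of_le h24 h, mul_zero]
      · rw [ramp_of_ge h48 h, one_mul]
    obtain ⟨h, hfc, hhn⟩ := exists_ramp_factor hc0 (show 0 < γ0 / 8 by linarith) h48
    obtain ⟨k, hgc, -⟩ := exists_ramp_factor hc0 (show 0 < γ0 / 4 by linarith) h24
    rw [← hg] at hgc
    rw [← hf] at hfc
    have hgc' : g = star k * c := by
      have := congrArg star hgc
      rwa [(IsSelfAdjoint.of_nonneg hg0).star_eq, star_mul,
        (IsSelfAdjoint.of_nonneg hc0).star_eq] at this
    obtain ⟨b, hb0, hb1, hbg, hbo, hbfull⟩ := hfam hg0 (show (0 : ℝ) < 1 / 16 by norm_num) η hη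
    have hbc : ∀ i, InHer c (b i) := fun i δ hδ => by
      obtain ⟨w, hw⟩ := hbg i δ hδ
      refine ⟨k * w * star k, ?_⟩
      have e : c * (k * w * star k) * c = g * w * g := by
        conv_rhs => arg 1; arg 1; rw [hgc]
        conv_rhs => arg 2; rw [hgc']
        simp only [mul_assoc]
      rwa [e]
    have hab : ∀ i, ‖a * b i‖ ≤ η := fun i => by
      have e : a * b i = (a * c) * h * b i := by
        conv_lhs => rw [← (hbg i).fix hfg, hfc]
        simp only [mul_assoc]
      rw [e]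
      calc ‖a * c * h * b i‖ ≤ ‖a * c‖ * ‖h‖ * ‖b i‖ := norm_mul₃_le
        _ ≤ η * γ0 / 8 * (1 / (γ0 / 8)) * 1 :=
            mul_le_mul (mul_le_mul hac hhn (norm_nonneg _) (by positivity)) (hb1 i) (norm_nonneg _)
              (by positivity)
        _ = η := by field_simp
    refine ⟨Fin.cons a b, Fin.cases (by simpa using ha0) (fun i => by simpa using hb0 i),
      Fin.cases (by simpa using ha1) (fun i => by simpa using hb1 i),
      Fin.cases (by simpa using hax) (fun i => by simpa using hcx.trans' (hbc i)), ?_, ?_⟩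
    · intro i j hij
      induction i using Fin.cases with
      | zero =>
        induction j using Fin.cases with
        | zero => exact absurd rfl hij
        | succ j => simpa using hab j
      | succ i =>
        induction j using Fin.cases with
        | zero =>
          simp only [Fin.cons_succ, Fin.cons_zero]
          rw [← norm_star, star_mul, (IsSelfAdjoint.of_nonneg ha0).star_eq,
            (IsSelfAdjoint.of_nonneg (hb0 i)).star_eq]
          exact hab i
        | succ j => simpa using hbo i j fun e => hij (by rw [e])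
    · intro J hJ i
      induction i using Fin.cases with
      | zero => exact fun hq => (hfull J hJ).1 ((by simpa using hq : qn J a ≤ _).trans (min_le_left _ _))
      | succ i =>
        intro hq
        have h1 := hbfull J hJ i ((by simpa using hq : qn J (b i) ≤ _).trans (min_le_right _ _))
        have hgg : qn J (g * g) ≤ 1 / 16 := (qn_le_norm_sub h1).trans
          (norm_sub_cut_le (by norm_num) (IsSelfAdjoint.of_nonneg hg0).mul_self_nonneg)
        have h2 := qn_mul_star_self hJ g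
        rw [(IsSelfAdjoint.of_nonneg hg0).star_eq] at h2
        have hg4 : qn J g ≤ 1 / 4 := by nlinarith [qn_nonneg (J := J) g]
        have h3 : cut (γ0 / 2) c ∈ J := by
          refine cfc_mem_of_qn_lt hJ (IsSelfAdjoint.of_nonneg hc0) (continuous_ramp _ _)
            (ramp_zero h24 (by linarith)) (show (0 : ℝ) < 3 / 4 by norm_num)
            (lt_of_le_of_lt hg4 (by norm_num)) (by fun_prop) (max_eq_right (by linarith))
            fun s _ hs => ?_
          rw [ramp_of_ge h24 (le_of_not_ge fun h1 => hs (max_eq_right (sub_nonpos.2 h1)))]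
          norm_num
        refine (hfull J hJ).2 ?_
        linarith [(qn_le_norm_sub h3).trans (norm_sub_cut_le (show 0 ≤ γ0 / 2 by linarith) hc0)]

/-- Arbitrarily many almost orthogonal full elements. The threshold does not depend on `x`. -/
theorem exists_orth_family {n m : ℕ} (hn : 1 ≤ n) (hC : WeaklyPurelyInfiniteWith C n)
    (hD : CoverDim C m) (R : ℕ) :
    ∃ γ : ℝ, 0 < γ ∧ ∀ {x : C}, 0 ≤ x → ∀ {ε : ℝ}, 0 < ε → ∀ η : ℝ, 0 < η → ∃ a : Fin R → C,
      (∀ i, 0 ≤ a i) ∧ (∀ i, ‖a i‖ ≤ 1) ∧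
      (∀ i, InHer x (a i)) ∧ (∀ i j, i ≠ j → ‖a i * a j‖ ≤ η) ∧
      ∀ J : Submodule ℂ C, IsStarIdeal J → ∀ i, qn J (a i) ≤ γ → cut ε (x * x) ∈ J :=
  OrthPairs.exists_family (exists_base hn hC hD) R

end Vale.Agent.P133
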