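import Vale.Agent.P133.W.Family

/-!
P133: a weakly purely infinite algebra of finite covering dimension is purely infinite.
-/

namespace Vale.Agent.P133

open scoped ComplexOrder

set_option linter.unusedSectionVars false

variable {C : Type*} [NonUnitalCStarAlgebra C] [PartialOrder C] [StarOrderedRing C]

/-- A positive cut of an element outside a closed ideal is still outside it. -/
theorem exists_cut_not_mem {J : Submodule ℂ C} (hJ : IsStarIdeal J) {u : C} (hu : 0 ≤ u)
    (h : u ∉ J) : ∃ θ : ℝ, 0 < θ ∧ cut θ u ∉ J := by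
  have hq : 0 < qn J u := (qn_nonneg u).lt_of_ne fun h0 => h ((qn_eq_zero hJ).1 h0.symm)
  refine ⟨qn J u / 2, by linarith, fun hc => ?_⟩
  have := (qn_le_norm_sub hc).trans (norm_sub_cut_le (show 0 ≤ qn J u / 2 by linarith) hu)
  linarith

theorem ramp_mul_cut (u : C) {a b : ℝ} (ha : 0 ≤ a) (hab : a < b) :
    cfcₙ (ramp a b) u * cut b u = cut b u := by
  have hb : max ((0 : ℝ) - b) 0 = 0 := max_eq_right (by linarith)
  rw [cut, ← cfcₙ_mul (ramp a b) (fun t : ℝ => max (t - b) 0) u (continuous_ramp a b).continuousOn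
    (ramp_zero hab ha) (by fun_prop) hb]
  refine cfcₙ_congr fun t _ => ?_
  rcases le_total t b with h | h
  · rw [max_eq_right (sub_nonpos.2 h), mul_zero]
  · rw [ramp_of_ge hab h, one_mul]

theorem norm_cfcₙ_ramp_le (u : C) (a b : ℝ) : ‖cfcₙ (ramp a b) u‖ ≤ 1 :=
  norm_cfcₙ_le fun t _ => by
    obtain ⟨h0, h1⟩ := ramp_mem a b t
    rw [Real.norm_of_nonneg h0]; exact h1

theorem norm_le_one_of_star_mul {t : C} (h : ‖star t * t‖ ≤ 1) : ‖t‖ ≤ 1 := by
  rw [CStarRing.norm_star_mul_self] at h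
  nlinarith [norm_nonneg t]

/-- One local source under all the `d q`. -/
theorem exists_source {κ : Type*} [Fintype κ] [DecidableEq κ] {J : Submodule ℂ C}
    (hJ : IsStarIdeal J) {b : C} (hb : 0 ≤ b) (hbJ : b ∉ J) (d f : κ → C)
    (hd : ∀ q, 0 ≤ d q) (hbd : ∀ q, b ∈ idealGen (d q)) (hfd : ∀ q, f q * d q = d q) :
    ∃ (o G : C) (s : κ → C), o ∉ J ∧ 0 ≤ o ∧ 0 ≤ G ∧ ‖G‖ ≤ 1 ∧ G * o = o ∧
      ∀ q, f q * s q = s q ∧ ‖s q‖ ≤ 1 ∧ star (s q) * s q = G := by
  have hI : IsStarIdeal (idealGen b) := isStarIdeal_idealGen (IsSelfAdjoint.of_nonneg hb).star_eq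
  have key : ∀ T : Finset κ, ∃ (G G' : C) (s : κ → C), 0 ≤ G ∧ ‖G‖ ≤ 1 ∧ 0 ≤ G' ∧ G' ∉ J ∧
      G * G' = G' ∧ G' ∈ idealGen b ∧
      ∀ q ∈ T, f q * s q = s q ∧ ‖s q‖ ≤ 1 ∧ star (s q) * s q * G = G := by
    intro T
    induction T using Finset.induction_on with
    | empty =>
      obtain ⟨θ, hθ, hθJ⟩ := exists_cut_not_mem hJ hb hbJ
      refine ⟨cfcₙ (ramp (θ / 2) θ) b, cut θ b, fun _ => 0,
        cfcₙ_nonneg fun t _ => (ramp_mem _ _ t).1, norm_cfcₙ_ramp_le _ _ _, cut_nonneg _ _, hθJ,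
        ramp_mul_cut b (by linarith) (by linarith), cut_mem_of_qn_lt hI hb ?_, by simp⟩
      rw [(qn_eq_zero hI).2 (mem_idealGen_self hb)]; exact hθ
    | insert k T hk ih =>
      obtain ⟨G, G', s, hG0, hG1, hG'0, hG'J, hGG', hG'I, hs⟩ := ih
      have hG's : star G' = G' := (IsSelfAdjoint.of_nonneg hG'0).star_eq
      have hy : ∃ y : C, d k * y * G' ∉ J := by
        by_contra hcon
        push_neg at hcon
        have hIk : IsStarIdeal (idealGen (d k)) :=
          isStarIdeal_idealGen (IsSelfAdjoint.of_nonneg (hd k)).star_eq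
        have hG'd : G' ∈ idealGen (d k) := idealGen_le hIk (hbd k) hG'I
        have h2 : ∀ z ∈ idealGen (d k), z * G' ∈ J := by
          intro z hz
          have hcl : IsClosed {z : C | z * G' ∈ J} :=
            hJ.closed.preimage (continuous_id.mul continuous_const)
          refine (closure_minimal ?_ hcl) hz
          intro z hz
          induction hz using Submodule.span_induction with
          | mem z hz =>
            obtain ⟨p, q, rfl⟩ := hz
            show p * d k * q * G' ∈ J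
            rw [mul_assoc p, mul_assoc p]
            exact hJ.mul_left p _ (hcon q)
          | zero => simp
          | add z w _ _ hz hw => show (z + w) * G' ∈ J; rw [add_mul]; exact J.add_mem hz hw
          | smul c z _ hz => show c • z * G' ∈ J; rw [smul_mul_assoc]; exact J.smul_mem c hz
        have h3 := (qn_eq_zero hJ).2 (h2 G' hG'd)
        have h4 := qn_star_mul_self hJ G'
        rw [hG's, h3] at h4
        exact hG'J ((qn_eq_zero hJ).1 (sq_eq_zero_iff.1 h4.symm))
      obtain ⟨y0, hy0⟩ := hy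
      set y := (1 / (‖d k * y0 * G'‖ + 1)) • y0 with hy'
      set t0 := d k * y * G' with ht0
      have hne : (1 : ℝ) / (‖d k * y0 * G'‖ + 1) ≠ 0 := by positivity
      have et0 : t0 = (1 / (‖d k * y0 * G'‖ + 1)) • (d k * y0 * G') := by
        rw [ht0, hy', mul_smul_comm, smul_mul_assoc]
      have ht0J : t0 ∉ J := by
        intro h
        refine hy0 ?_
        have := J.smul_mem ((((1 : ℝ) / (‖d k * y0 * G'‖ + 1))⁻¹ : ℝ) : ℂ) h
        rwa [et0, Complex.coe_smul, smul_smul, inv_mul_cancel₀ hne, one_smul] at this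
      set u := star t0 * t0 with hu
      have hu0 : 0 ≤ u := star_mul_self_nonneg _
      have huJ : u ∉ J := fun h => ht0J ((qn_eq_zero hJ).1 (sq_eq_zero_iff.1
        ((qn_star_mul_self hJ t0).symm.trans ((qn_eq_zero hJ).2 h))))
      have huI : u ∈ idealGen b := hI.mul_left _ _ (hI.mul_left _ _ hG'I)
      obtain ⟨θ, hθ, hθJ⟩ := exists_cut_not_mem hJ hu0 huJ
      have hab : θ / 4 < θ / 2 := by linarith
      set φ := ramp (θ / 4) (θ / 2) with hφ
      set w : ℝ → ℝ := fun t => √(φ t / max t (θ / 4)) with hw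
      have hmx : ∀ t : ℝ, max t (θ / 4) ≠ 0 := fun t => (lt_max_of_lt_right (by linarith)).ne'
      have hwc : Continuous w := ((continuous_ramp _ _).div (by fun_prop) hmx).sqrt
      have hw0 : w 0 = 0 := by simp [hw, hφ, ramp_zero hab (by linarith)]
      set W := cfcₙ w u with hW
      have hWs : star W = W := (cfcₙ_predicate w u : IsSelfAdjoint W).star_eq
      have hWuW : W * u * W = cfcₙ φ u := by
        rw [hW, cfcₙ_conj hu0 hwc hw0]
        refine cfcₙ_congr fun t ht => ?_
        have h0 : 0 ≤ φ t / max t (θ / 4) := div_nonneg (ramp_mem _ _ t).1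
          ((by linarith : (0 : ℝ) ≤ θ / 4).trans (le_max_right _ _))
        simp only [hw]
        rw [mul_comm (√_) t, mul_assoc, Real.mul_self_sqrt h0]
        rcases le_total t (θ / 4) with h1 | h1
        · simp [hφ, ramp_of_le hab h1]
        · rw [max_eq_left h1, mul_div_cancel₀ _ (by linarith : (t : ℝ) ≠ 0)]
      have htt : star (t0 * W) * (t0 * W) = cfcₙ φ u := by
        rw [← hWuW, hu, star_mul, hWs]; simp only [mul_assoc]
      set G1 := cfcₙ (ramp (θ / 2) θ) u with hG1'
      have hGu : G * u = u := by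
        have e : u = G' * (star y * star (d k) * t0) := by
          rw [hu, ht0, star_mul, star_mul, hG's]; simp only [mul_assoc]
        rw [e, ← mul_assoc, hGG']
      have hφG1 : cfcₙ φ u * G1 = G1 := by
        rw [hG1', ← cfcₙ_mul _ _ _ (continuous_ramp _ _).continuousOn
          (ramp_zero hab (by linarith)) (continuous_ramp _ _).continuousOn
          (ramp_zero (by linarith) (by linarith))]
        refine cfcₙ_congr fun t _ => ?_
        rcases le_total t (θ / 2) with h | h
        · rw [ramp_of_le (by linarith : θ / 2 < θ) h, mul_zero]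
        · rw [ramp_of_ge hab h, one_mul]
      obtain ⟨v, hv, -⟩ := exists_ramp_factor hu0 (show 0 < θ / 2 by linarith)
        (show θ / 2 < θ by linarith)
      refine ⟨G1, cut θ u, Function.update s k (t0 * W),
        cfcₙ_nonneg fun t _ => (ramp_mem _ _ t).1, norm_cfcₙ_ramp_le _ _ _, cut_nonneg _ _, hθJ,
        ramp_mul_cut u (by linarith) (by linarith),
        cut_mem_of_qn_lt hI hu0 (by rw [(qn_eq_zero hI).2 huI]; exact hθ), fun q hq => ?_⟩
      rcases Finset.mem_insert.1 hq with rfl | hq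
      · rw [Function.update_self]
        refine ⟨?_, norm_le_one_of_star_mul ?_, by rw [htt]; exact hφG1⟩
        · rw [ht0]; simp only [← mul_assoc, hfd]
        · rw [htt]; exact norm_cfcₙ_ramp_le _ _ _
      · rw [Function.update_of_ne (fun e => hk (by rwa [e] at hq))]
        obtain ⟨h1, h2, h3⟩ := hs q hq
        refine ⟨h1, h2, ?_⟩
        have e : G * G1 = G1 := by rw [hG1', hv, ← mul_assoc, hGu]
        calc star (s q) * s q * G1 = star (s q) * s q * (G * G1) := by rw [e]
          _ = (star (s q) * s q * G) * G1 := by simp only [mul_assoc]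
          _ = G1 := by rw [h3, e]
  obtain ⟨G, G', s, hG0, hG1, hG'0, hG'J, hGG', -, hs⟩ := key Finset.univ
  have hGs : star G = G := (IsSelfAdjoint.of_nonneg hG0).star_eq
  refine ⟨G', G * G, fun q => s q * G, hG'J, hG'0, (IsSelfAdjoint.of_nonneg hG0).mul_self_nonneg,
    (norm_mul_le _ _).trans (mul_le_one₀ hG1 (norm_nonneg _) hG1),
    by rw [mul_assoc, hGG', hGG'], fun q => ?_⟩
  obtain ⟨h1, h2, h3⟩ := hs q (Finset.mem_univ q)
  refine ⟨by rw [← mul_assoc, h1], (norm_mul_le _ _).trans (mul_le_one₀ h2 (norm_nonneg _) hG1), ?_⟩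
  calc star (s q * G) * (s q * G) = G * (star (s q) * s q * G) := by
        rw [star_mul, hGs]; simp only [mul_assoc]
    _ = G * G := by rw [h3]

/-- The Gram element of one colour. -/
theorem colour_gram {ι : Type*} [Fintype ι] [DecidableEq ι] (g s G : ι → C) {ξ : ℝ} (hξ : 0 ≤ ξ)
    (hg1 : ∀ z, ‖g z‖ ≤ 1) (hs : ∀ z, star (s z) * s z = G z) (hs1 : ∀ z, ‖s z‖ ≤ 1)
    (hgo : ∀ z w, z ≠ w → ‖star (g z) * g w‖ ≤ ξ ∧ ‖g z * star (g w)‖ ≤ ξ)
    (hgc : ∀ z w, ‖star (g w) * (star (s z) * s w) - star (s z) * s w * star (g w)‖ ≤ ξ)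
    (hsmall : (Fintype.card ι : ℝ) ^ 2 * ξ ≤ 1 / 4) :
    ‖star (∑ z, s z * star (g z)) * (∑ z, s z * star (g z)) - ∑ z, g z * G z * star (g z)‖ ≤
        2 * ((Fintype.card ι : ℝ) ^ 2 * ξ) ∧ ‖∑ z, s z * star (g z)‖ ≤ 2 := by
  set S := ∑ z, s z * star (g z) with hS
  set D := ∑ z, g z * G z * star (g z) with hD
  have e : star S * S - D = ∑ z, ∑ w, if z = w then 0 else g z * (star (s z) * s w) * star (g w) := by
    rw [hS, hD, star_sum, Finset.sum_mul_sum, ← Finset.sum_sub_distrib]
    refine Finset.sum_congr rfl fun z _ => ?_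
    rw [← Finset.sum_erase_add Finset.univ (fun w => star (s z * star (g z)) * (s w * star (g w)))
      (Finset.mem_univ z), ← Finset.sum_erase_add Finset.univ
      (fun w => if z = w then 0 else g z * (star (s z) * s w) * star (g w)) (Finset.mem_univ z)]
    have e1 : star (s z * star (g z)) * (s z * star (g z)) = g z * G z * star (g z) := by
      rw [← hs z, star_mul, star_star]; simp only [mul_assoc]
    simp only [if_true, add_zero, e1, add_sub_cancel_right]
    exact Finset.sum_congr rfl fun w hw => by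
      rw [if_neg (Finset.ne_of_mem_erase hw).symm, star_mul, star_star]; simp only [mul_assoc]
  have hE : ‖star S * S - D‖ ≤ 2 * ((Fintype.card ι : ℝ) ^ 2 * ξ) := by
    rw [e]
    refine (norm_sum_le _ _).trans ?_
    refine (Finset.sum_le_sum (g := fun _ => (Fintype.card ι : ℝ) * (2 * ξ)) fun z _ =>
      (norm_sum_le _ _).trans ((Finset.sum_le_sum (g := fun _ => 2 * ξ) fun w _ => ?_).trans
        (by simp))).trans (le_of_eq (by simp; ring))
    split_ifs with h
    · rw [norm_zero]; positivity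
    · have hY : ‖star (s z) * s w‖ ≤ 1 :=
        (norm_mul_le _ _).trans (mul_le_one₀ ((norm_star _).le.trans (hs1 z)) (norm_nonneg _) (hs1 w))
      have e2 : g z * (star (s z) * s w) * star (g w) = g z * star (g w) * (star (s z) * s w) -
          g z * (star (g w) * (star (s z) * s w) - star (s z) * s w * star (g w)) := by
        simp only [mul_sub, mul_assoc]; abel
      rw [e2, two_mul]
      refine (norm_sub_le _ _).trans (add_le_add ((norm_mul_le _ _).trans ?_)
        ((norm_mul_le _ _).trans ?_))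
      · calc _ ≤ ξ * 1 := mul_le_mul (hgo z w h).2 hY (norm_nonneg _) hξ
          _ = ξ := mul_one ξ
      · calc _ ≤ 1 * ξ := mul_le_mul (hg1 z) (hgc z w) (norm_nonneg _) zero_le_one
          _ = ξ := one_mul ξ
  refine ⟨hE, ?_⟩
  have hD0 : ∀ z, 0 ≤ G z := fun z => hs z ▸ star_mul_self_nonneg _
  have hD2 : ‖D‖ ≤ 3 / 2 := by
    have h1 : ‖∑ z, g z * star (g z)‖ ≤ 3 / 2 := by
      refine (norm_sum_orth_le g (B := 1) (β := 1) (e := ξ) (fun z => ?_) zero_le_one hg1 hξ
        (fun z w hzw => (hgo z w hzw).1) ?_).trans (by norm_num)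
      · refine (norm_mul_le _ _).trans (mul_le_one₀ ?_ (norm_nonneg _) (hg1 z))
        rw [norm_star]; exact hg1 z
      · linarith
    have h2 := sum_le_norm_smul g G hD0 (B := 1) (fun z => by
      rw [← hs z]
      exact (norm_mul_le _ _).trans (mul_le_one₀ ((norm_star _).le.trans (hs1 z)) (norm_nonneg _)
        (hs1 z))) zero_le_one h1
    linarith
  have h3 := norm_le_norm_add_norm_sub' (star S * S) D
  rw [CStarRing.norm_star_mul_self] at h3
  rw [norm_sub_rev] at hE
  nlinarith [norm_nonneg S, norm_sub_rev (star S * S) D]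

set_option maxHeartbeats 1000000 in
/-- The sums of the coloured copies. -/
theorem exists_gram {n m : ℕ} (hn : 1 ≤ n) (hC : WeaklyPurelyInfiniteWith C n)
    (hD : CoverDim C m) {x : C} (hx : 0 ≤ x) {ε : ℝ} (hε : 0 < ε) {τ : ℝ} (hτ : 0 < τ) :
    ∃ (γ : ℝ) (a : (Fin 2 × Fin n) × (Fin (m + 1) × Fin (m + 1)) → C)
      (S : (Fin 2 × Fin n) × (Fin (m + 1) × Fin (m + 1)) → C) (Gt : C),
      0 < γ ∧ (∀ q, 0 ≤ a q ∧ ‖a q‖ ≤ 1 ∧ InHer x (a q)) ∧
      (∀ q, cfcₙ (ramp (γ / 8) (γ / 4)) (a q) * S q = S q ∧ ‖S q‖ ≤ 2) ∧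
      0 ≤ Gt ∧ cut ε (x * x) ∈ idealGen (cut (1 / 4) Gt) ∧
      ∀ q q' : Fin 2 × Fin n, ‖star (∑ p, S (q, p)) * (∑ p, S (q', p)) -
        if q = q' then Gt else 0‖ ≤ τ := by
  classical
  set κ := (Fin 2 × Fin n) × (Fin (m + 1) × Fin (m + 1))
  set e := Fintype.equivFin κ
  set P : ℝ := (Fintype.card (Fin (m + 1) × Fin (m + 1)) : ℝ) with hP
  have hP1 : 1 ≤ P := by rw [hP]; exact_mod_cast Fintype.card_pos
  obtain ⟨γ, hγ, hfam⟩ := exists_orth_family hn hC hD (Fintype.card κ)
  set τ' := τ / (2 * P ^ 2) with hτ'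
  have hτ'0 : 0 < τ' := by positivity
  set η := γ ^ 2 * τ' / 256 with hη
  obtain ⟨a0, ha0, ha1, hax, hao, hafull⟩ := hfam hx (show 0 < ε / 4 by linarith) η (by positivity)
  set a : κ → C := fun q => a0 (e q) with ha
  set f : κ → C := fun q => cfcₙ (ramp (γ / 8) (γ / 4)) (a q) with hf
  set d : κ → C := fun q => cut (γ / 2) (a q) with hd
  have h84 : γ / 8 < γ / 4 := by linarith
  have hfd : ∀ q, f q * d q = d q := fun q => by
    simp only [hf, hd]
    rw [cut, ← cfcₙ_mul (ramp (γ / 8) (γ / 4)) (fun t : ℝ => max (t - γ / 2) 0) (a q)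
      (continuous_ramp _ _).continuousOn
      (ramp_zero h84 (by linarith)) (by fun_prop) (max_eq_right (by linarith))]
    refine cfcₙ_congr fun t _ => ?_
    rcases le_total t (γ / 2) with h | h
    · rw [max_eq_right (sub_nonpos.2 h), mul_zero]
    · rw [ramp_of_ge h84 (by linarith), one_mul]
  have hxx : 0 ≤ x * x := (IsSelfAdjoint.of_nonneg hx).mul_self_nonneg
  set b := cut (ε / 4) (x * x) with hb
  have hb0 : 0 ≤ b := cut_nonneg _ _
  have hbd : ∀ q, b ∈ idealGen (d q) := fun q => by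
    have hI : IsStarIdeal (idealGen (d q)) :=
      isStarIdeal_idealGen (IsSelfAdjoint.of_nonneg (cut_nonneg _ _)).star_eq
    refine hafull _ hI (e q) ?_
    have := (qn_le_norm_sub (mem_idealGen_self (cut_nonneg (γ / 2) (a q)))).trans
      (norm_sub_cut_le (show 0 ≤ γ / 2 by linarith) (ha0 (e q)))
    show qn (idealGen (d q)) (a q) ≤ γ
    simp only [hd]
    linarith
  set O : Set C := {o | ∃ (G : C) (s : κ → C), 0 ≤ o ∧ 0 ≤ G ∧ ‖G‖ ≤ 1 ∧ G * o = o ∧
    ∀ q, f q * s q = s q ∧ ‖s q‖ ≤ 1 ∧ star (s q) * s q = G} with hO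
  have hO0 : ∀ o ∈ O, 0 ≤ o := by rintro o ⟨G, s, h, -⟩; exact h
  have hJ0 : IsStarIdeal (idealSpan O) :=
    isStarIdeal_idealSpan fun o ho => (IsSelfAdjoint.of_nonneg (hO0 o ho)).star_eq
  have hbO : b ∈ idealSpan O := by
    by_contra h
    obtain ⟨o, G, s, ho, ho0, hG⟩ := exists_source hJ0 hb0 h d f (fun q => cut_nonneg _ _) hbd hfd
    exact ho (idealGen_le_idealSpan (O := O) ⟨G, s, ho0, hG⟩ (mem_idealGen_self ho0))
  choose GG ss hho hG0 hG1 hGo hs using fun o (ho : o ∈ O) => ho
  set G : C → C := fun o => if ho : o ∈ O then GG o ho else 0 with hG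
  obtain ⟨N, o, ho, hcol⟩ := exists_coloured hD hb0 O hO0 hbO G (fun o ho => by
    simp only [hG, dif_pos ho]; exact ⟨hG1 o ho, hGo o ho⟩) (show 0 < ε / 4 by linarith)
  set s : Fin N → κ → C := fun l => ss (o l) (ho l) with hsdef
  set Gz : Fin N → C := fun l => G (o l) with hGz
  have hsl : ∀ l q, f q * s l q = s l q ∧ ‖s l q‖ ≤ 1 ∧ star (s l q) * s l q = Gz l := fun l q => by
    have := hs (o l) (ho l) q
    simp only [hGz, hG, dif_pos (ho l), hsdef]
    exact this
  have hGz0 : ∀ l, 0 ≤ Gz l ∧ ‖Gz l‖ ≤ 1 := fun l => by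
    simp only [hGz, hG, dif_pos (ho l)]; exact ⟨hG0 _ _, hG1 _ _⟩
  set c : ℝ := (Fintype.card (Fin N × Finset (Fin N)) : ℝ) with hc
  set ξ := min (1 / 4) (τ' / 2) / (c ^ 2 + 1) with hξ
  have hξ0 : 0 < ξ := div_pos (lt_min (by norm_num) (by linarith)) (by positivity)
  have hξc : c ^ 2 * ξ ≤ min (1 / 4) (τ' / 2) := by
    rw [hξ, mul_div_assoc', div_le_iff₀ (by positivity)]
    nlinarith [lt_min (show (0 : ℝ) < 1 / 4 by norm_num) (show 0 < τ' / 2 by linarith)]
  obtain ⟨H, hH1, hHc, hHo, hHJ⟩ := hcol (Finset.univ.image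
    fun q : (Fin N × Fin N) × κ => star (s q.1.1 q.2) * s q.1.2 q.2) ξ hξ0
  set g : Fin (m + 1) × Fin (m + 1) → Fin N × Finset (Fin N) → C :=
    fun p z => if colOf m z = p then H z else 0 with hg
  set S : κ → C := fun q => ∑ z, s z.1 q * star (g q.2 z) with hS
  set D : Fin (m + 1) × Fin (m + 1) → C := fun p => ∑ z, g p z * Gz z.1 * star (g p z) with hDdef
  set Gt := ∑ z, H z * Gz z.1 * star (H z) with hGt
  have hgr : ∀ q, ‖star (S q) * S q - D q.2‖ ≤ τ' ∧ ‖S q‖ ≤ 2 := fun q => by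
    have := colour_gram (g q.2) (fun z => s z.1 q) (fun z => Gz z.1) hξ0.le
      (fun z => by simp only [hg]; split_ifs; exacts [hH1 z, by simp])
      (fun z => (hsl z.1 q).2.2) (fun z => (hsl z.1 q).2.1)
      (fun z w hzw => by
        simp only [hg]
        split_ifs with h1 h2
        · exact hHo z w hzw (h1.trans h2.symm)
        all_goals simp [hξ0.le])
      (fun z w => by
        simp only [hg]
        split_ifs
        · exact (hHc w _ (Finset.mem_image.2 ⟨((z.1, w.1), q), Finset.mem_univ _, rfl⟩)).2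
        · simp [hξ0.le])
      (hξc.trans (min_le_left _ _))
    refine ⟨this.1.trans ?_, this.2⟩
    linarith [hξc.trans (min_le_right _ _)]
  have hfS : ∀ q, f q * S q = S q := fun q => by
    simp only [hS, Finset.mul_sum]
    exact Finset.sum_congr rfl fun z _ => by rw [← mul_assoc, (hsl z.1 q).1]
  have hoff : ∀ q q', q ≠ q' → ‖star (S q) * S q'‖ ≤ τ' := fun q q' hne => by
    obtain ⟨h1, e1, hn1⟩ := exists_ramp_factor (ha0 (e q)) (show 0 < γ / 8 by linarith) h84
    obtain ⟨h2, e2, hn2⟩ := exists_ramp_factor (ha0 (e q')) (show 0 < γ / 8 by linarith) h84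
    have e1' : f q = star h1 * a q := by
      have : star (f q) = star (a q * h1) := congrArg star e1
      rwa [(IsSelfAdjoint.of_nonneg (cfcₙ_nonneg fun t _ => (ramp_mem _ _ t).1) :
        IsSelfAdjoint (f q)).star_eq, star_mul, (IsSelfAdjoint.of_nonneg (ha0 (e q))).star_eq]
        at this
    have hff : ‖f q * f q'‖ ≤ 8 / γ * η * (8 / γ) := by
      rw [e1', show f q' = a q' * h2 from e2,
        show star h1 * a q * (a q' * h2) = star h1 * (a q * a q') * h2 by simp only [mul_assoc]]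
      refine norm_mul₃_le.trans (mul_le_mul (mul_le_mul ?_ (hao _ _ (e.injective.ne hne))
        (norm_nonneg _) (by positivity)) (hn2.trans (by rw [one_div_div]))
        (norm_nonneg _) (by positivity))
      rw [norm_star]; exact hn1.trans (by rw [one_div_div])
    have e3 : star (S q) * S q' = star (S q) * (f q * f q') * S q' := by
      conv_lhs => rw [← hfS q, ← hfS q']
      rw [star_mul, (IsSelfAdjoint.of_nonneg (cfcₙ_nonneg fun t _ => (ramp_mem _ _ t).1) :
        IsSelfAdjoint (f q)).star_eq]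
      simp only [mul_assoc]
    rw [e3]
    refine norm_mul₃_le.trans ?_
    rw [norm_star]
    refine (mul_le_mul (mul_le_mul (hgr q).2 hff (norm_nonneg _) zero_le_two) (hgr q').2
      (norm_nonneg _) (by positivity)).trans (le_of_eq ?_)
    rw [hη]; field_simp; ring
  have hDGt : ∑ p, D p = Gt := by
    simp only [hDdef]
    rw [Finset.sum_comm]
    refine Finset.sum_congr rfl fun z _ => ?_
    rw [Finset.sum_eq_single (colOf m z) (fun p _ hp => by simp [hg, Ne.symm hp]) (by simp)]
    simp [hg]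
  have hGt0 : 0 ≤ Gt := Finset.sum_nonneg fun z _ => star_right_conjugate_nonneg (hGz0 z.1).1 _
  refine ⟨γ, a, S, Gt, hγ, fun q => ⟨ha0 _, ha1 _, hax _⟩, fun q => ⟨hfS q, (hgr q).2⟩, hGt0,
    ?_, fun q q' => ?_⟩
  · have hJ : IsStarIdeal (idealGen (cut (1 / 4) Gt)) :=
      isStarIdeal_idealGen (IsSelfAdjoint.of_nonneg (cut_nonneg _ _)).star_eq
    have hqG : qn (idealGen (cut (1 / 4) Gt)) Gt ≤ 1 / 4 :=
      (qn_le_norm_sub (mem_idealGen_self (cut_nonneg _ _))).trans
        (norm_sub_cut_le (by norm_num) hGt0)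
    have hbJ : cut (ε / 4) b ∈ idealGen (cut (1 / 4) Gt) := by
      refine hHJ _ hJ fun z => ?_
      have hgs : star (Gz z.1) = Gz z.1 := (IsSelfAdjoint.of_nonneg (hGz0 z.1).1).star_eq
      have hle : Gz z.1 * Gz z.1 ≤ Gz z.1 := by
        refine (mul_self_le_norm_smul (hGz0 z.1).1).trans ?_
        calc ‖Gz z.1‖ • Gz z.1 ≤ (1 : ℝ) • Gz z.1 :=
              smul_le_smul_of_nonneg_right (hGz0 z.1).2 (hGz0 z.1).1
          _ = Gz z.1 := one_smul ℝ _
      have h1 : qn (idealGen (cut (1 / 4) Gt)) (H z * Gz z.1) ^ 2 ≤ 1 / 4 := by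
        rw [← qn_mul_star_self hJ]
        have e4 : H z * Gz z.1 * star (H z * Gz z.1) =
            H z * (Gz z.1 * Gz z.1) * star (H z) := by
          simp only [star_mul, hgs, mul_assoc]
        rw [e4]
        refine (qn_le_of_le hJ (star_right_conjugate_nonneg
          (IsSelfAdjoint.of_nonneg (hGz0 z.1).1).mul_self_nonneg _)
          ((conj_le_conj' (H z) hle).trans ?_)).trans hqG
        exact Finset.single_le_sum (f := fun z => H z * Gz z.1 * star (H z))
          (fun z _ => star_right_conjugate_nonneg (hGz0 z.1).1 _) (Finset.mem_univ z)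
      show qn _ (H z * G (o z.1)) ≤ 1 / 2
      simp only [hGz] at h1
      nlinarith [qn_nonneg (J := idealGen (cut (1 / 4) Gt)) (H z * G (o z.1))]
    refine cut_mem_of_qn_lt hJ hxx ?_
    have h1 := (qn_le_norm_sub hbJ).trans
      (norm_sub_cut_le (show 0 ≤ ε / 4 by linarith) hb0)
    have h2 := (qn_le_add_norm (J := idealGen (cut (1 / 4) Gt)) (x * x) b).trans
      (add_le_add h1 (norm_sub_cut_le (show 0 ≤ ε / 4 by linarith) hxx))
    linarith
  · have e5 : star (∑ p, S (q, p)) * (∑ p, S (q', p)) - (if q = q' then Gt else 0) =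
        ∑ p, ∑ p', (star (S (q, p)) * S (q', p') - if p = p' ∧ q = q' then D p else 0) := by
      simp only [star_sum, Finset.sum_mul_sum, Finset.sum_sub_distrib]
      congr 1
      split_ifs with h
      · simp [h, hDGt]
      · simp [h]
    rw [e5]
    refine (norm_sum_le _ _).trans ((Finset.sum_le_sum (g := fun _ => P * τ') fun p _ =>
      (norm_sum_le _ _).trans ((Finset.sum_le_sum (g := fun _ => τ') fun p' _ => ?_).trans
        (by simp [hP]))).trans ?_)
    · split_ifs with h
      · rw [← h.1, ← h.2]; exact (hgr (q, p)).1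
      · rw [sub_zero]
        exact hoff _ _ fun e => h ⟨(Prod.mk.injEq _ _ _ _ ▸ e).2, (Prod.mk.injEq _ _ _ _ ▸ e).1⟩
    · rw [Finset.sum_const, Finset.card_univ, nsmul_eq_mul, ← hP, hτ']
      rw [show P * (P * (τ / (2 * P ^ 2))) = τ / 2 by field_simp]
      linarith

set_option maxHeartbeats 1000000 in
/-- A weakly purely infinite algebra of finite covering dimension is purely infinite. -/
theorem purelyInfinite_of_weakly (hW : WeaklyPurelyInfinite C) {m : ℕ} (hD : CoverDim C m) :
    PurelyInfinite C := by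
  obtain ⟨n, hn, hC⟩ := hW
  intro h hh ε0 hε0
  set ε := ε0 / 8 with hεdef
  have hε : 0 < ε := by positivity
  set x := CFC.sqrt h with hxdef
  have hx : 0 ≤ x := CFC.sqrt_nonneg h
  have hxs : star x = x := (IsSelfAdjoint.of_nonneg hx).star_eq
  have hxx : x * x = h := CFC.sqrt_mul_sqrt_self h hh
  set ρ := √(4 * (‖h‖ + ε)) with hρ
  have hρ0 : 0 ≤ ρ := Real.sqrt_nonneg _
  have hn0 : (1 : ℝ) ≤ n := by exact_mod_cast hn
  set τ := ε / ((n : ℝ) ^ 2 * (ρ ^ 2 + 1)) with hτ
  have hτ0 : 0 < τ := by positivity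
  obtain ⟨γ, a, S, Gt, hγ, ha, hS, hGt0, hmem, hgram⟩ := exists_gram hn hC hD hx hε hτ0
  set z := cut ε h with hz
  have hz0 : 0 ≤ z := cut_nonneg _ _
  rw [hxx] at hmem
  obtain ⟨r, hr, hrn⟩ := hC.exists_bounded hn hGt0 hz0 (show (0 : ℝ) < 1 / 4 by norm_num) hmem hε
  have hrρ : ∀ j, ‖r j‖ ≤ ρ := fun j => by
    rw [hρ]
    refine Real.le_sqrt_of_sq_le ((hrn j).trans ?_)
    have := norm_cut_le hε.le hh
    rw [div_le_iff₀ (by norm_num : (0 : ℝ) < 1 / 4)]
    linarith
  set A : Fin 2 → C := fun i => ∑ j, (∑ p, S ((i, j), p)) * r j with hA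
  have hAA : ∀ i i', ‖star (A i) * A i' - if i = i' then h else 0‖ ≤ 3 * ε := by
    intro i i'
    set E : Fin n → Fin n → C := fun j j' => star (∑ p, S ((i, j), p)) * (∑ p, S ((i', j'), p)) -
      if (i, j) = (i', j') then Gt else 0 with hE
    have e : star (A i) * A i' - (if i = i' then ∑ j, star (r j) * Gt * r j else 0) =
        ∑ j, ∑ j', star (r j) * E j j' * r j' := by
      simp only [hA, hE, star_sum, star_mul, Finset.sum_mul, Finset.mul_sum, mul_sub, sub_mul,
        Finset.sum_sub_distrib, mul_assoc]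
      congr 1
      · exact (Finset.sum_congr rfl fun _ _ => Finset.sum_comm).trans Finset.sum_comm
      · split_ifs with h
        · subst h; simp
        · simp [h]
    have hb : ‖∑ j, ∑ j', star (r j) * E j j' * r j'‖ ≤ (n : ℝ) ^ 2 * (ρ * τ * ρ) := by
      refine (norm_sum_le _ _).trans ((Finset.sum_le_sum (g := fun _ => (n : ℝ) * (ρ * τ * ρ))
        fun j _ => (norm_sum_le _ _).trans ((Finset.sum_le_sum (g := fun _ => ρ * τ * ρ)
          fun j' _ => ?_).trans (by simp))).trans (le_of_eq (by simp; ring)))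
      refine norm_mul₃_le.trans (mul_le_mul (mul_le_mul ((norm_star _).le.trans (hrρ j))
        (hgram _ _) (norm_nonneg _) hρ0) (hrρ j') (norm_nonneg _) (by positivity))
    have hb2 : (n : ℝ) ^ 2 * (ρ * τ * ρ) ≤ ε := by
      rw [hτ, show (n : ℝ) ^ 2 * (ρ * (ε / ((n : ℝ) ^ 2 * (ρ ^ 2 + 1))) * ρ) =
        ε * (ρ ^ 2 / (ρ ^ 2 + 1)) by field_simp]
      exact mul_le_of_le_one_right hε.le (by rw [div_le_one (by positivity)]; linarith)
    rw [← e] at hb
    by_cases hii : i = i'
    · rw [if_pos hii] at hb ⊢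
      have h2 := norm_sub_cut_le hε.le hh
      rw [← hz, norm_sub_rev] at h2
      calc _ ≤ ‖star (A i) * A i' - ∑ j, star (r j) * Gt * r j‖ +
            (‖(∑ j, star (r j) * Gt * r j) - z‖ + ‖z - h‖) :=
            (norm_sub_le_norm_sub_add_norm_sub _ _ _).trans
              (add_le_add le_rfl (norm_sub_le_norm_sub_add_norm_sub _ _ _))
        _ ≤ 3 * ε := by linarith
    · rw [if_neg hii] at hb ⊢; linarith
  set M := √(‖h‖ + 3 * ε) with hM
  have hM0 : 0 ≤ M := Real.sqrt_nonneg _
  have hAM : ∀ i, ‖A i‖ ≤ M := fun i => by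
    refine Real.le_sqrt_of_sq_le ?_
    have := hAA i i
    rw [if_pos rfl] at this
    have h1 := norm_le_norm_add_norm_sub' (star (A i) * A i) h
    rw [CStarRing.norm_star_mul_self] at h1
    linarith [sq ‖A i‖]
  set d := min 1 (ε / (2 * M + 1)) with hd
  have hd0 : 0 < d := lt_min one_pos (by positivity)
  set P : ℝ := (Fintype.card (Fin (m + 1) × Fin (m + 1)) : ℝ) with hP
  set σ := d / ((n : ℝ) * P * (16 / γ) * ρ + 1) with hσ
  have hσ0 : 0 < σ := by positivity
  have habs : ∀ q, ∃ g : C, ‖x * g * S q - S q‖ ≤ 16 / γ * σ := fun q => by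
    obtain ⟨g, hg⟩ := exists_absorb hx (ha q).1 (ha q).2.2 hσ0
    obtain ⟨k, hk, hkn⟩ := exists_ramp_factor (ha q).1 (show 0 < γ / 8 by linarith)
      (show γ / 8 < γ / 4 by linarith)
    refine ⟨g, ?_⟩
    set v := CFC.sqrt (a q) with hv
    have hvv : v * v = a q := CFC.sqrt_mul_sqrt_self _ (ha q).1
    have hv1 : ‖v‖ ≤ 1 := norm_le_one_of_star_mul (by
      rw [(IsSelfAdjoint.of_nonneg (CFC.sqrt_nonneg (a q))).star_eq, hvv]; exact (ha q).2.1)
    have e : x * g * S q - S q = (x * g * v - v) * (v * k * S q) := by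
      conv_lhs => rw [← (hS q).1, hk, ← hvv]
      simp only [sub_mul, mul_assoc]
    rw [e]
    refine (norm_mul_le _ _).trans ?_
    rw [mul_comm (16 / γ)]
    refine mul_le_mul hg (norm_mul₃_le.trans ?_) (norm_nonneg _) hσ0.le
    calc ‖v‖ * ‖k‖ * ‖S q‖ ≤ 1 * (1 / (γ / 8)) * 2 :=
          mul_le_mul (mul_le_mul hv1 hkn (norm_nonneg _) zero_le_one) (hS q).2 (norm_nonneg _)
            (by positivity)
      _ = 16 / γ := by field_simp; ring
  choose g hg using habs
  set a' : Fin 2 → C := fun i => ∑ j, (∑ p, g ((i, j), p) * S ((i, j), p)) * r j with ha'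
  have hd' : ∀ i, ‖x * a' i - A i‖ ≤ d := fun i => by
    have e : x * a' i - A i =
        ∑ j, (∑ p, (x * g ((i, j), p) * S ((i, j), p) - S ((i, j), p))) * r j := by
      simp only [ha', hA, Finset.mul_sum, Finset.sum_mul, Finset.sum_sub_distrib, sub_mul,
        mul_assoc]
    rw [e]
    refine (norm_sum_le _ _).trans ((Finset.sum_le_sum (g := fun _ => P * (16 / γ * σ) * ρ)
      fun j _ => (norm_mul_le _ _).trans (mul_le_mul ((norm_sum_le _ _).trans
        ((Finset.sum_le_sum (g := fun _ => 16 / γ * σ) fun p _ => hg _).trans (by simp [hP])))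
        (hrρ j) (norm_nonneg _) (by positivity))).trans ?_)
    rw [Finset.sum_const, Finset.card_univ, Fintype.card_fin, nsmul_eq_mul]
    calc (n : ℝ) * (P * (16 / γ * σ) * ρ) = ((n : ℝ) * P * (16 / γ) * ρ) * σ := by ring
      _ ≤ ((n : ℝ) * P * (16 / γ) * ρ + 1) * σ := by nlinarith
      _ = d := by rw [hσ]; exact mul_div_cancel₀ _ (by positivity)
  have hfin : ∀ i i', ‖star (a' i) * h * a' i' - if i = i' then h else 0‖ < ε0 := by
    intro i i'
    have e : star (a' i) * h * a' i' = star (x * a' i) * (x * a' i') := by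
      rw [← hxx, star_mul, hxs]; simp only [mul_assoc]
    rw [e]
    set u := x * a' i with hu
    set u' := x * a' i' with hu'
    have h1 : ‖star u * u' - star (A i) * A i'‖ ≤ ε := by
      rw [show star u * u' - star (A i) * A i' =
        star (u - A i) * u' + star (A i) * (u' - A i') by
          simp only [star_sub, sub_mul, mul_sub]; abel]
      have hu1 : ‖u'‖ ≤ M + 1 := by
        linarith [norm_le_norm_add_norm_sub' u' (A i'), hd' i', hAM i', min_le_left 1 (ε / (2 * M + 1))]
      refine (norm_add_le _ _).trans ((add_le_add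
        ((norm_mul_le _ _).trans (mul_le_mul ((norm_star _).le.trans (hd' i)) hu1 (norm_nonneg _)
          hd0.le))
        ((norm_mul_le _ _).trans (mul_le_mul ((norm_star _).le.trans (hAM i)) (hd' i')
          (norm_nonneg _) hM0))).trans ?_)
      calc d * (M + 1) + M * d = d * (2 * M + 1) := by ring
        _ ≤ ε := by rw [← le_div_iff₀ (by positivity)]; exact min_le_right _ _
    have := norm_sub_le_norm_sub_add_norm_sub (star u * u') (star (A i) * A i')
      (if i = i' then h else 0)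
    linarith [hAA i i', hεdef]
  refine ⟨a' 0, a' 1, ?_, ?_, ?_⟩
  · simpa using hfin 0 0
  · simpa using hfin 1 1
  · simpa using hfin 0 1

end Vale.Agent.P133
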