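import Vale.Agent.P133.W.Ops

/-!
P133: nested levels of cut units for a family with a covering condition of order `m`.
-/

namespace Vale.Agent.P133

open scoped ComplexOrder

set_option linter.unusedSectionVars false

variable {C : Type*} [NonUnitalCStarAlgebra C] [PartialOrder C] [StarOrderedRing C]

/-- Several quasi-central families, each later one acting as a unit on all earlier ones. -/
theorem exists_tower (n : ℕ) (J : Fin n → Submodule ℂ C) (hJ : ∀ i, IsStarIdeal (J i))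
    (Z : Fin n → Finset C) (hZ : ∀ i, ∀ z ∈ Z i, z ∈ J i) (S : Finset C) {ξ : ℝ} (hξ : 0 < ξ) :
    ∀ T : ℕ, ∃ w : ℕ → Fin n → C, ∀ t < T, ∀ i, w t i ∈ J i ∧ 0 ≤ w t i ∧ ‖w t i‖ ≤ 1 ∧
      (∀ z ∈ Z i, ‖w t i * z - z‖ ≤ ξ ∧ ‖z * w t i - z‖ ≤ ξ) ∧
      (∀ s ∈ S, ‖w t i * s - s * w t i‖ ≤ ξ) ∧
      (∀ t' < T, ∀ j, ‖w t i * w t' j - w t' j * w t i‖ ≤ ξ) ∧
      ∀ t' < t, ‖w t i * w t' i - w t' i‖ ≤ ξ := by
  intro T
  induction T with
  | zero => exact ⟨fun _ _ => 0, fun t ht => absurd ht (Nat.not_lt_zero _)⟩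
  | succ T ih =>
    classical
    obtain ⟨w, hw⟩ := ih
    obtain ⟨u, hu⟩ := exists_family n J hJ
      (fun i => Z i ∪ (Finset.range T).image fun t => w t i)
      (fun i z hz => by
        rcases Finset.mem_union.1 hz with h | h
        · exact hZ i z h
        · obtain ⟨t, ht, rfl⟩ := Finset.mem_image.1 h
          exact (hw t (Finset.mem_range.1 ht) i).1)
      (S ∪ (Finset.range T).biUnion fun t => Finset.univ.image (w t)) ξ hξ
    have hcur : ∀ t < T, ∀ i j, ‖u i * w t j - w t j * u i‖ ≤ ξ := fun t ht i j =>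
      (hu i).2.2.2.2.1 _ (Finset.mem_union_right _ (Finset.mem_biUnion.2
        ⟨t, Finset.mem_range.2 ht, Finset.mem_image.2 ⟨j, Finset.mem_univ _, rfl⟩⟩))
    refine ⟨fun t => if t = T then u else w t, fun t ht i => ?_⟩
    rcases Nat.lt_succ_iff_lt_or_eq.1 ht with ht | rfl
    · obtain ⟨h1, h2, h3, h4, h5, h6, h7⟩ := hw t ht i
      simp only [if_neg ht.ne]
      refine ⟨h1, h2, h3, h4, h5, fun t' ht' j => ?_, fun t' ht' => ?_⟩
      · rcases Nat.lt_succ_iff_lt_or_eq.1 ht' with ht' | rfl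
        · simp only [if_neg ht'.ne]; exact h6 t' ht' j
        · simp only [if_true]; rw [norm_sub_rev]; exact hcur t ht j i
      · simp only [if_neg (ht'.trans ht).ne]; exact h7 t' ht'
    · obtain ⟨h1, h2, h3, h4, h5, h6⟩ := hu i
      simp only [if_true]
      refine ⟨h1, h2, h3, fun z hz => ?_, fun s hs => h5 s (Finset.mem_union_left _ hs),
        fun t' ht' j => ?_, fun t' ht' => ?_⟩
      · exact ⟨(h4 z (Finset.mem_union_left _ hz)).1.le, (h4 z (Finset.mem_union_left _ hz)).2.le⟩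
      · rcases Nat.lt_succ_iff_lt_or_eq.1 ht' with ht' | rfl
        · simp only [if_neg ht'.ne]; exact hcur t' ht' i j
        · simp only [if_true]; exact h6 j
      · simp only [if_neg ht'.ne]
        exact (h4 _ (Finset.mem_union_right _ (Finset.mem_image.2
          ⟨t', Finset.mem_range.2 ht', rfl⟩))).1.le

/-- Products of squares of cut units are dominated by products of the units. -/
theorem norm_pl_cut_le {ι : Type*} [DecidableEq ι] {a w : ι → C} (ha : ∀ i, ‖a i‖ ≤ 1)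
    (hw : ∀ i, ‖w i‖ ≤ 1) {c : ℝ} (hc : 0 ≤ c) (haa : ∀ i j, ‖a i * a j - a j * a i‖ ≤ c)
    (hwa : ∀ i j, ‖w i * a j - a j * w i‖ ≤ c) (hww : ∀ i j, ‖w i * w j - w j * w i‖ ≤ c)
    (haw : ∀ i Y, ‖a i * Y‖ ≤ ‖w i * Y‖) (L : List ι) (hL : L.Nodup) (T : Finset ι)
    (hT : ∀ i ∈ T, i ∈ L) :
    ∀ Y, ‖pl a T Y L‖ ≤ ‖pl w T Y L‖ + T.card * (4 * L.length * c) * ‖Y‖ := by
  induction T using Finset.induction_on with
  | empty => intro Y; simp [pl_empty]
  | insert i T hi ih =>
    intro Y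
    have hiL := hT i (Finset.mem_insert_self i T)
    have h1 := norm_pl_insert_le ha (X := Y) hc (i := i) (T := T) (fun j _ => haa i j) hi L hL hiL
    have h2 := haw i (pl a T Y L)
    have h3 := norm_mul_pl_sub_le ha (q := w i) (X := Y) hc T (fun j _ => hwa i j) L
    have h4 := ih (fun j hj => hT j (Finset.mem_insert_of_mem hj)) (w i * Y)
    have h5 := norm_pl_insert_right_le hw (X := Y) hc (i := i) (T := T) (fun j _ => hww i j) hi L
      hL hiL
    have h6 : (T.card : ℝ) * (4 * L.length * c) * ‖w i * Y‖ ≤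
        T.card * (4 * L.length * c) * ‖Y‖ :=
      mul_le_mul_of_nonneg_left ((norm_mul_le _ _).trans
        (mul_le_of_le_one_left (norm_nonneg _) (hw i))) (by positivity)
    have h7 : 0 ≤ (L.length : ℝ) * c * ‖Y‖ := by positivity
    rw [Finset.card_insert_of_notMem hi]
    push_cast
    linarith [norm_le_norm_add_norm_sub' (pl a (insert i T) Y L) (a i * pl a T Y L),
      norm_le_norm_add_norm_sub' (w i * pl a T Y L) (pl a T (w i * Y) L),
      norm_le_norm_add_norm_sub (pl w (insert i T) Y L) (pl w T (w i * Y) L)]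

set_option maxHeartbeats 1000000 in
/-- The levels. -/
theorem exists_levels {n m : ℕ} (z : Fin n → C) {δ : ℝ} (hz0 : ∀ l, 0 ≤ z l)
    (hmult : ∀ S : Finset (Fin n), S.card = m + 1 → ∀ a : C, (∀ l ∈ S, a ∈ idealGen (z l)) →
      a ∈ idealSpan ((fun l => cut δ (z l)) '' (S : Set (Fin n))))
    {T : ℕ} (hT : 1 ≤ T) (S : Finset C) {ξ : ℝ} (hξ : 0 < ξ) :
    ∃ A : ℕ → Fin n → C, (∀ t i, 0 ≤ A t i ∧ ‖A t i‖ ≤ 1) ∧
      (∀ t < T, ∀ t' < T, ∀ i j, ‖A t i * A t' j - A t' j * A t i‖ ≤ ξ) ∧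
      (∀ t < T, ∀ i, ∀ s ∈ S, ‖A t i * s - s * A t i‖ ≤ ξ) ∧
      (∀ t t', t < t' → t' < T → ∀ i, ‖A t' i * A t i - A t i‖ ≤ ξ) ∧
      (∀ σ : Finset (Fin n), σ.card = m + 2 → ∀ l,
        ‖pl (A (T - 1)) σ (z l) (List.finRange n)‖ ≤ ξ) ∧
      ∀ J : Submodule ℂ C, IsStarIdeal J → ∀ l : Fin n, (∀ i < l, cut δ (z i) ∈ J) →
        qn J (z l) ≤ qn J (A 0 l * z l) + ξ := by
  classical
  set N : ℝ := (n : ℝ) + 1 with hN
  have hN1 : 1 ≤ N := by rw [hN]; linarith [Nat.cast_nonneg (α := ℝ) n]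
  set Z := 1 + ∑ l, ‖z l‖ with hZ
  have hZ1 : 1 ≤ Z := by
    rw [hZ]; linarith [Finset.sum_nonneg (s := Finset.univ) fun l _ => norm_nonneg (z l)]
  have hzZ : ∀ l, ‖z l‖ ≤ Z := fun l => by
    rw [hZ]
    linarith [Finset.single_le_sum (f := fun l => ‖z l‖) (fun j _ => norm_nonneg _)
      (Finset.mem_univ l)]
  set D : ℝ := 30 * ((m : ℝ) + 2) * N ^ 3 * Z with hD
  have hm1 : (1 : ℝ) ≤ (m : ℝ) + 2 := by linarith [Nat.cast_nonneg (α := ℝ) m]
  set ξ0 := ξ / D with hξ0
  have hξ0p : 0 < ξ0 := by positivity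
  have hDξ : D * ξ0 = ξ := mul_div_cancel₀ _ (by positivity)
  have hzs : ∀ l, star (z l) = z l := fun l => (IsSelfAdjoint.of_nonneg (hz0 l)).star_eq
  set S' : Finset C := S ∪ S.image star with hS'
  obtain ⟨W, hW⟩ := exists_tower n (fun l => idealGen (z l))
    (fun l => isStarIdeal_idealGen (hzs l)) (fun l => {z l})
    (fun l a ha => by rw [Finset.mem_singleton] at ha; subst ha; exact mem_idealGen_self (hz0 l))
    S' hξ0p T
  -- products of the top units of `m + 1` indices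
  set L := List.finRange n with hL
  have hLn : L.Nodup := List.nodup_finRange n
  have hLl : (L.length : ℝ) ≤ N := by rw [hL, List.length_finRange, hN]; linarith
  have hLm : ∀ i : Fin n, i ∈ L := fun i => List.mem_finRange i
  set cz : Fin n → C := fun l => cut δ (z l) with hcz
  have hsplit : ∀ q : Finset (Fin n) × Fin n, ∃ p : Fin n → C, (∀ i, p i ∈ idealGen (cz i)) ∧
      (q.1.card = m + 1 → q.2 ∈ q.1 →
        ‖pl (W (T - 1)) (q.1.erase q.2) (W (T - 1) q.2) L - ∑ i ∈ q.1, p i‖ < ξ0) := fun q => by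
    by_cases hq : q.1.card = m + 1 ∧ q.2 ∈ q.1
    · have hx : pl (W (T - 1)) (q.1.erase q.2) (W (T - 1) q.2) L ∈
          idealSpan (cz '' (q.1 : Set (Fin n))) :=
        hmult q.1 hq.1 _ fun l hl => by
          refine pl_mem (isStarIdeal_idealGen (hzs l)) _ _ L ?_
          by_cases h : l = q.2
          · exact Or.inl (h ▸ (hW (T - 1) (by omega) l).1)
          · exact Or.inr ⟨l, hLm l, Finset.mem_erase.2 ⟨h, hl⟩, (hW (T - 1) (by omega) l).1⟩
      obtain ⟨p, hp1, hp2⟩ := exists_split hx hξ0p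
      exact ⟨p, hp1, fun _ _ => hp2⟩
    · exact ⟨0, fun i => zero_mem _, fun h1 h2 => absurd ⟨h1, h2⟩ hq⟩
  choose p hpJ hp using hsplit
  set Y := 1 + ∑ q, ∑ i, ‖p q i‖ with hY
  have hYs := Finset.sum_nonneg (s := Finset.univ) fun (q : Finset (Fin n) × Fin n) _ =>
    Finset.sum_nonneg (s := Finset.univ) fun i _ => norm_nonneg (p q i)
  have hY0 : 1 ≤ Y := by rw [hY]; linarith
  have hpY : ∀ q i, ‖p q i‖ ≤ Y := fun q i => by
    rw [hY]
    linarith [(Finset.single_le_sum (f := fun i => ‖p q i‖) (fun j _ => norm_nonneg _)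
      (Finset.mem_univ i)).trans (Finset.single_le_sum (f := fun q => ∑ i, ‖p q i‖)
        (fun q _ => Finset.sum_nonneg fun i _ => norm_nonneg _) (Finset.mem_univ q))]
  set ξ1 := ξ0 / (N * (Y * N)) with hξ1
  have hξ1p : 0 < ξ1 := by positivity
  have hξ10 : ξ1 ≤ ξ0 := div_le_self hξ0p.le (one_le_mul_of_one_le_of_one_le hN1
    (one_le_mul_of_one_le_of_one_le hY0 hN1))
  obtain ⟨v, hv⟩ := exists_tower n (fun l => idealGen (cz l))
    (fun l => isStarIdeal_idealGen (IsSelfAdjoint.of_nonneg (cut_nonneg _ _)).star_eq)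
    (fun l => Finset.univ.image fun q => p q l)
    (fun l a ha => by
      obtain ⟨q, -, rfl⟩ := Finset.mem_image.1 ha
      exact hpJ q l)
    (S' ∪ (Finset.range T).biUnion fun t => Finset.univ.image (W t)) hξ1p T
  set U : ℕ → ℕ → C := fun t k => if h : k < n ∧ t < T then v (T - 1 - t) ⟨k, h.1⟩ else 0 with hU
  have hUv : ∀ t < T, ∀ k (h : k < n), U t k = v (T - 1 - t) ⟨k, h⟩ := fun t ht k h => by
    simp only [hU, dif_pos (show k < n ∧ t < T from ⟨h, ht⟩)]
  have hU01 : ∀ t k, 0 ≤ U t k ∧ ‖U t k‖ ≤ 1 := fun t k => by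
    simp only [hU]
    split_ifs with h
    · exact ⟨(hv _ (by omega) _).2.1, (hv _ (by omega) _).2.2.1⟩
    · simp
  -- the commutators of the data
  set w : ℕ → Fin n → C := fun t i => if t < T then W t i else 0 with hw
  have hwW : ∀ t < T, ∀ i, w t i = W t i := fun t ht i => by simp only [hw, if_pos ht]
  have hw01 : ∀ t i, star (w t i) = w t i ∧ ‖w t i‖ ≤ 1 := fun t i => by
    simp only [hw]
    split_ifs with h
    · exact ⟨(IsSelfAdjoint.of_nonneg (hW t h i).2.1).star_eq, (hW t h i).2.2.1⟩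
    · simp
  set g : ℕ → Fin n → C := fun t i => gw (U t) (w t i) i with hg
  have hgn : ∀ t i, ‖g t i‖ ≤ 1 := fun t i => (norm_gw_le (hU01 t) _ _).trans (hw01 t i).2
  -- elements commuting with the data
  set P : C → Prop := fun x => (∀ t < T, ∀ i, ‖x * W t i - W t i * x‖ ≤ ξ0) ∧
    ∀ t < T, ∀ k < n, ‖x * U t k - U t k * x‖ ≤ ξ0 with hP
  have hPW : ∀ t < T, ∀ i, P (W t i) := fun t ht i => ⟨fun t' ht' j => (hW t ht i).2.2.2.2.2.1 t' ht' j,
    fun t' ht' k hk => by
      rw [hUv t' ht' k hk, norm_sub_rev]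
      exact ((hv _ (by omega) _).2.2.2.2.1 _ (Finset.mem_union_right _ (Finset.mem_biUnion.2
        ⟨t, Finset.mem_range.2 ht, Finset.mem_image.2 ⟨i, Finset.mem_univ _, rfl⟩⟩))).trans hξ10⟩
  have hPU : ∀ t < T, ∀ k < n, P (U t k) := fun t ht k hk => ⟨fun t' ht' j => by
      rw [norm_sub_rev]; exact (hPW t' ht' j).2 t ht k hk,
    fun t' ht' k' hk' => by
      rw [hUv t ht k hk, hUv t' ht' k' hk']
      exact ((hv _ (by omega) _).2.2.2.2.2.1 _ (by omega) _).trans hξ10⟩
  have hPS : ∀ s ∈ S', P s := fun s hs => ⟨fun t ht i => by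
      rw [norm_sub_rev]; exact (hW t ht i).2.2.2.2.1 s hs,
    fun t ht k hk => by
      rw [hUv t ht k hk, norm_sub_rev]
      exact ((hv _ (by omega) _).2.2.2.2.1 _ (Finset.mem_union_left _ hs)).trans hξ10⟩
  have hPg : ∀ x, P x → ∀ t < T, ∀ i, ‖x * g t i - g t i * x‖ ≤ N * ξ0 := fun x hx t ht i => by
    refine (norm_comm_gw_le (hU01 t) (hw01 t i).2 (by rw [hwW t ht]; exact hx.1 t ht i) i
      fun k hk => hx.2 t ht k (by omega)).trans (mul_le_mul_of_nonneg_right ?_ hξ0p.le)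
    have : ((i : ℕ) : ℝ) ≤ (n : ℝ) := by exact_mod_cast i.isLt.le
    rw [hN]; linarith
  have hPg' : ∀ x, P x → P (star x) → ∀ t < T, ∀ i,
      ‖x * star (g t i) - star (g t i) * x‖ ≤ N * ξ0 := fun x _ hx t ht i => by
    have h := hPg _ hx t ht i
    rw [← norm_star] at h
    rw [norm_sub_rev]
    simpa only [star_sub, star_mul, star_star] using h
  have hsW : ∀ t < T, ∀ i, P (star (W t i)) := fun t ht i => by
    rw [(IsSelfAdjoint.of_nonneg (hW t ht i).2.1).star_eq]; exact hPW t ht i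
  have hsU : ∀ t < T, ∀ k < n, P (star (U t k)) := fun t ht k hk => by
    rw [(IsSelfAdjoint.of_nonneg (hU01 t k).1).star_eq]; exact hPU t ht k hk
  have hNξ : 0 ≤ N * ξ0 := by positivity
  have hgd : ∀ t < T, ∀ i, ‖star (g t i) - g t i‖ ≤ N ^ 2 * ξ0 := fun t ht i => by
    refine (norm_star_gw_sub_le (hU01 t) i (e := N * ξ0) fun k hk => ?_).trans ?_
    · refine (norm_comm_gw_le (hU01 t) (hw01 t i).2 ?_ k fun k' hk' =>
        (hPU t ht k (by omega)).2 t ht k' (by omega)).trans (mul_le_mul_of_nonneg_right ?_ hξ0p.le)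
      · rw [hwW t ht]; exact (hPU t ht k (by omega)).1 t ht i
      · have : ((k : ℕ) : ℝ) ≤ (n : ℝ) := by exact_mod_cast (by omega : k ≤ n)
        rw [hN]; linarith
    · rw [(hw01 t i).1, sub_self, norm_zero, zero_add, sq, mul_assoc]
      refine mul_le_mul_of_nonneg_right ?_ hNξ
      have : ((i : ℕ) : ℝ) ≤ (n : ℝ) := by exact_mod_cast i.isLt.le
      rw [hN]; linarith
  set A : ℕ → Fin n → C := fun t i => star (g t i) * g t i with hA
  have hA01 : ∀ t i, 0 ≤ A t i ∧ ‖A t i‖ ≤ 1 := fun t i => ⟨star_mul_self_nonneg _,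
    (norm_mul_le _ _).trans (mul_le_one₀ ((norm_star _).le.trans (hgn t i)) (norm_nonneg _)
      (hgn t i))⟩
  have hAcomm : ∀ x, P x → P (star x) → ∀ t < T, ∀ i,
      ‖x * A t i - A t i * x‖ ≤ 2 * N * ξ0 := fun x h1 h2 t ht i => by
    refine (norm_comm_mul x _ _).trans ?_
    have h3 := mul_le_of_le_one_right (norm_nonneg (x * star (g t i) - star (g t i) * x)) (hgn t i)
    have h4 := mul_le_of_le_one_left (norm_nonneg (x * g t i - g t i * x))
      ((norm_star (g t i)).le.trans (hgn t i))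
    linarith [hPg x h1 t ht i, hPg' x h1 h2 t ht i]
  have hAA : ∀ t < T, ∀ t' < T, ∀ i j,
      ‖A t i * A t' j - A t' j * A t i‖ ≤ 4 * N ^ 2 * ξ0 := fun t ht t' ht' i j => by
    have h1 : ‖A t i * g t' j - g t' j * A t i‖ ≤ 2 * N ^ 2 * ξ0 := by
      have hj : ((j : ℕ) : ℝ) ≤ (n : ℝ) := by exact_mod_cast j.isLt.le
      refine (norm_comm_gw_le (hU01 t') (hw01 t' j).2 (ξ := 2 * N * ξ0) ?_ j fun k hk => ?_).trans
        ?_
      · rw [hwW t' ht', norm_sub_rev]; exact hAcomm _ (hPW t' ht' j) (hsW t' ht' j) t ht i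
      · rw [norm_sub_rev]
        exact hAcomm _ (hPU t' ht' k (by omega)) (hsU t' ht' k (by omega)) t ht i
      · rw [show 2 * N ^ 2 * ξ0 = N * (2 * N * ξ0) by ring]
        refine mul_le_mul_of_nonneg_right ?_ (by positivity)
        rw [hN]; linarith
    have h2 : ‖A t i * star (g t' j) - star (g t' j) * A t i‖ ≤ 2 * N ^ 2 * ξ0 := by
      have hs : star (A t i) = A t i := (IsSelfAdjoint.star_mul_self _).star_eq
      rw [← norm_star] at h1
      rw [norm_sub_rev]
      simpa only [star_sub, star_mul, hs] using h1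
    refine (norm_comm_mul (A t i) _ _).trans ?_
    have h3 := mul_le_of_le_one_right (norm_nonneg (A t i * star (g t' j) - star (g t' j) * A t i))
      (hgn t' j)
    have h4 := mul_le_of_le_one_left (norm_nonneg (A t i * g t' j - g t' j * A t i))
      ((norm_star (g t' j)).le.trans (hgn t' j))
    linarith
  have hnest : ∀ t t', t < t' → t' < T → ∀ i,
      ‖A t' i * A t i - A t i‖ ≤ 7 * N ^ 2 * ξ0 := fun t t' htt ht' i => by
    have ht : t < T := htt.trans ht'
    have hi : ((i : ℕ) : ℝ) ≤ (n : ℝ) := by exact_mod_cast i.isLt.le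
    set G := g t i with hG
    set G' := g t' i with hG'
    have hwG : ‖w t' i * G - G‖ ≤ N * ξ0 := by
      have h := norm_gw_absorb_le (hU01 t) (q := w t' i) (X := w t i) hξ0p.le 1 (j := i)
        (fun k hk => by rw [hwW t' ht']; exact (hPW t' ht' i).2 t ht k (by omega))
      rw [one_smul, one_smul] at h
      have h1 : ‖w t' i * w t i - w t i‖ ≤ ξ0 := by
        rw [hwW t' ht', hwW t ht]; exact (hW t' ht' i).2.2.2.2.2.2 t htt
      have h2 : ((i : ℕ) : ℝ) * ξ0 * ‖w t i‖ ≤ n * ξ0 :=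
        (mul_le_of_le_one_right (by positivity) (hw01 t i).2).trans
          (mul_le_mul_of_nonneg_right hi hξ0p.le)
      rw [hN]
      linarith
    have hUG : ∀ k < (i : ℕ), ‖U t' k * G‖ ≤ N * ξ0 := fun k hk => by
      have hkn : k < n := by omega
      have hy : ‖U t' k * U t k - U t' k‖ ≤ ξ0 := by
        rw [← norm_star, star_sub, star_mul, (IsSelfAdjoint.of_nonneg (hU01 t k).1).star_eq,
          (IsSelfAdjoint.of_nonneg (hU01 t' k).1).star_eq, hUv t ht k hkn, hUv t' ht' k hkn]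
        exact ((hv (T - 1 - t) (by omega) ⟨k, hkn⟩).2.2.2.2.2.2 (T - 1 - t') (by omega)).trans hξ10
      obtain ⟨_, _, _, h⟩ := norm_mul_gw_le (hU01 t) (hw01 t i).2 hy i hk
        fun k' hk' => (hPU t ht k hkn).2 t ht k' (by omega)
      refine h.trans (mul_le_mul_of_nonneg_right ?_ hξ0p.le)
      rw [hN]
      linarith [mul_le_mul (hU01 t' k).2 hi (Nat.cast_nonneg _) zero_le_one]
    have hGG : ‖G' * G - G‖ ≤ 2 * N ^ 2 * ξ0 := by
      rw [hG', hg]
      simp only
      rw [← gw_mul]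
      have h1 := norm_gw_le (hU01 t') (w t' i * G - G) i
      rw [gw_sub] at h1
      have h2 := norm_gw_fix_le (hU01 t') (G := G) (e := N * ξ0) i hUG
      have h3 : ((i : ℕ) : ℝ) * (N * ξ0) ≤ N ^ 2 * ξ0 := by
        rw [sq, mul_assoc]; exact mul_le_mul_of_nonneg_right (by rw [hN]; linarith) hNξ
      have h4 : N * ξ0 ≤ N ^ 2 * ξ0 := mul_le_mul_of_nonneg_right (by nlinarith) hξ0p.le
      linarith [norm_sub_le_norm_sub_add_norm_sub (gw (U t') (w t' i * G) i) (gw (U t') G i) G]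
    have e : A t' i * A t i - A t i =
        (star G' - G') * (G' * (star G * G)) + G' * G' * ((star G - G) * G) +
          (G' * (G' * G - G) * G + (G' * G - G) * G) - (star G - G) * G := by
      simp only [hA, ← hG, ← hG', sub_mul, mul_sub, mul_assoc]; abel
    rw [e]
    have hGn := hgn t i
    have hG'n := hgn t' i
    have b1 : ‖(star G' - G') * (G' * (star G * G))‖ ≤ N ^ 2 * ξ0 := by
      refine (norm_mul_le _ _).trans ((mul_le_of_le_one_right (norm_nonneg _) ?_).trans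
        (hgd t' ht' i))
      exact (norm_mul_le _ _).trans (mul_le_one₀ hG'n (norm_nonneg _) (hA01 t i).2)
    have b2 : ‖(star G - G) * G‖ ≤ N ^ 2 * ξ0 :=
      (norm_mul_le _ _).trans ((mul_le_of_le_one_right (norm_nonneg _) hGn).trans (hgd t ht i))
    have b3 : ‖G' * G' * ((star G - G) * G)‖ ≤ N ^ 2 * ξ0 := by
      refine (norm_mul_le _ _).trans ((mul_le_of_le_one_left (norm_nonneg _) ?_).trans b2)
      exact (norm_mul_le _ _).trans (mul_le_one₀ hG'n (norm_nonneg _) hG'n)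
    have b4 : ‖(G' * G - G) * G‖ ≤ 2 * N ^ 2 * ξ0 :=
      (norm_mul_le _ _).trans ((mul_le_of_le_one_right (norm_nonneg _) hGn).trans hGG)
    have b5 : ‖G' * (G' * G - G) * G‖ ≤ 2 * N ^ 2 * ξ0 := by
      rw [mul_assoc]
      exact (norm_mul_le _ _).trans ((mul_le_of_le_one_left (norm_nonneg _) hG'n).trans b4)
    linarith [norm_sub_le ((star G' - G') * (G' * (star G * G)) + G' * G' * ((star G - G) * G) +
          (G' * (G' * G - G) * G + (G' * G - G) * G)) ((star G - G) * G),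
      norm_add₃_le (a := (star G' - G') * (G' * (star G * G)))
        (b := G' * G' * ((star G - G) * G)) (c := G' * (G' * G - G) * G + (G' * G - G) * G),
      norm_add_le (G' * (G' * G - G) * G) ((G' * G - G) * G)]
  -- the products of `m + 2` top units
  have hbase : ∀ σ : Finset (Fin n), σ.card = m + 2 → ∀ l,
      ‖pl (A (T - 1)) σ (z l) L‖ ≤ ξ := fun σ hσ l => by
    set t := T - 1 with ht
    have htT : t < T := by omega
    have hne : σ.Nonempty := Finset.card_pos.1 (by omega)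
    set M := σ.max' hne with hM
    set τ := σ.erase M with hτ
    have hτc : τ.card = m + 1 := by rw [hτ, Finset.card_erase_of_mem (σ.max'_mem hne), hσ]; omega
    have hτlt : ∀ i ∈ τ, i < M := fun i hi =>
      lt_of_le_of_ne (σ.le_max' i (Finset.mem_of_mem_erase hi)) (Finset.ne_of_mem_erase hi)
    obtain ⟨i0, hi0⟩ : τ.Nonempty := Finset.card_pos.1 (by omega)
    have hAc : ∀ i j, ‖A t i * A t j - A t j * A t i‖ ≤ 4 * N ^ 2 * ξ0 := hAA t htT t htT
    set c := 4 * N ^ 2 * ξ0 with hc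
    have hc0 : 0 ≤ c := by positivity
    have hNc : N * ξ0 ≤ c / 2 := by
      rw [hc]; linarith [mul_le_mul_of_nonneg_right (le_self_pow₀ hN1 two_ne_zero) hξ0p.le]
    have hWc : ∀ i j, ‖W t i * W t j - W t j * W t i‖ ≤ c := fun i j =>
      ((hPW t htT i).1 t htT j).trans (by linarith [le_mul_of_one_le_left hξ0p.le hN1])
    have s1 := norm_pl_insert_right_le (fun i => (hA01 t i).2) (X := z l) hc0 (i := M) (T := τ)
      (fun j _ => hAc M j) (Finset.notMem_erase _ _) L hLn (hLm M)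
    rw [hτ, Finset.insert_erase (σ.max'_mem hne), ← hτ] at s1
    set Y0 := A t M * z l with hY0'
    have hY0n : ‖Y0‖ ≤ Z :=
      ((norm_mul_le _ _).trans (mul_le_of_le_one_left (norm_nonneg _) (hA01 t M).2)).trans (hzZ l)
    have s2 := norm_pl_cut_le (a := A t) (w := W t) (fun i => (hA01 t i).2)
      (fun i => (hW t htT i).2.2.1) hc0 hAc (fun i j => (hAcomm _ (hPW t htT i) (hsW t htT i) t htT
        j).trans (by linarith)) hWc
      (fun i X => by
        show ‖star (g t i) * g t i * X‖ ≤ _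
        rw [mul_assoc]
        refine (norm_mul_le _ _).trans ((mul_le_of_le_one_left (norm_nonneg _)
          ((norm_star _).le.trans (hgn t i))).trans ?_)
        rw [hg]
        simp only [← gw_mul, hwW t htT]
        exact norm_gw_le (hU01 t) _ _)
      L hLn τ (fun i _ => hLm i) Y0
    have s3 := norm_pl_insert_right_le (fun i => (hW t htT i).2.2.1) (X := Y0) hc0 (i := i0)
      (T := τ.erase i0) (fun j _ => hWc i0 j) (Finset.notMem_erase _ _) L hLn (hLm i0)
    rw [Finset.insert_erase hi0, pl_mul (τ.erase i0) (W t i0) Y0] at s3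
    set x := pl (W t) (τ.erase i0) (W t i0) L with hx
    have hx1 : ‖x‖ ≤ 1 :=
      (norm_pl_le (fun i => (hW t htT i).2.2.1) _ _ _).trans (hW t htT i0).2.2.1
    have hxg : ‖x * g t M‖ ≤ ξ0 + ξ0 := by
      have e : x * g t M = (x - ∑ i ∈ τ, p (τ, i0) i) * g t M + ∑ i ∈ τ, p (τ, i0) i * g t M := by
        rw [sub_mul, Finset.sum_mul]; abel
      rw [e]
      refine (norm_add_le _ _).trans (add_le_add ((norm_mul_le _ _).trans
        ((mul_le_of_le_one_right (norm_nonneg _) (hgn t M)).trans (hp (τ, i0) hτc hi0).le)) ?_)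
      refine (norm_sum_le _ _).trans ((Finset.sum_le_sum (g := fun _ => Y * N * ξ1) fun i hi => ?_).trans
        ?_)
      · have hy : ‖p (τ, i0) i * U t i - p (τ, i0) i‖ ≤ ξ1 := by
          rw [hUv t htT i i.isLt, Fin.eta]
          exact ((hv _ (by omega) i).2.2.2.1 _
            (Finset.mem_image.2 ⟨_, Finset.mem_univ _, rfl⟩)).2
        obtain ⟨_, _, _, h⟩ := norm_mul_gw_le (hU01 t) (hw01 t M).2 hy M (hτlt i hi) fun k hk => by
          rw [hUv t htT i i.isLt, hUv t htT k (by omega)]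
          exact (hv _ (by omega) _).2.2.2.2.2.1 _ (by omega) _
        refine h.trans (mul_le_mul_of_nonneg_right ?_ hξ1p.le)
        have hMn : ((M : ℕ) : ℝ) ≤ n := by exact_mod_cast M.isLt.le
        have := mul_le_mul (hpY (τ, i0) i) hMn (Nat.cast_nonneg _) (by linarith)
        rw [hN]; linarith
      · rw [Finset.sum_const, nsmul_eq_mul]
        have hτn : (τ.card : ℝ) ≤ N := by
          have := Finset.card_le_univ τ
          rw [Fintype.card_fin] at this
          have : (τ.card : ℝ) ≤ n := by exact_mod_cast this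
          rw [hN]; linarith
        refine (mul_le_mul_of_nonneg_right hτn (by positivity)).trans (le_of_eq ?_)
        rw [hξ1]; field_simp
    have hxY : ‖x * Y0‖ ≤ (2 * ξ0 + N ^ 2 * ξ0) * Z := by
      have e : x * Y0 = x * (star (g t M) - g t M) * (g t M * z l) +
          x * g t M * (g t M * z l) := by
        simp only [hY0', hA, sub_mul, mul_sub, mul_assoc]; abel
      rw [e]
      have hgz : ‖g t M * z l‖ ≤ Z := ((norm_mul_le _ _).trans
        (mul_le_of_le_one_left (norm_nonneg _) (hgn t M))).trans (hzZ l)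
      refine (norm_add_le _ _).trans ?_
      have b1 := (norm_mul_le (x * (star (g t M) - g t M)) (g t M * z l)).trans
        (mul_le_mul (((norm_mul_le _ _).trans (mul_le_of_le_one_left (norm_nonneg _) hx1)).trans
          (hgd t htT M)) hgz (norm_nonneg _) (by positivity))
      have b2 := (norm_mul_le (x * g t M) (g t M * z l)).trans
        (mul_le_mul hxg hgz (norm_nonneg _) (by positivity))
      linarith
    have hcZ : ∀ (k : ℝ) (X : C), 0 ≤ k → ‖X‖ ≤ Z → k * L.length * c * ‖X‖ ≤ k * N * c * Z :=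
      fun k X hk hX => mul_le_mul (mul_le_mul_of_nonneg_right
        (mul_le_mul_of_nonneg_left hLl hk) hc0) hX (norm_nonneg _) (by positivity)
    have b1 := hcZ 2 (z l) zero_le_two (hzZ l)
    have b2 := hcZ 2 Y0 zero_le_two hY0n
    have b3 : (τ.card : ℝ) * (4 * L.length * c) * ‖Y0‖ ≤ ((m : ℝ) + 1) * (4 * N * c) * Z := by
      rw [hτc]; push_cast
      exact mul_le_mul (mul_le_mul_of_nonneg_left (mul_le_mul_of_nonneg_right (by linarith) hc0)
        (by positivity)) hY0n (norm_nonneg _) (by positivity)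
    have hq : (1 : ℝ) ≤ N ^ 3 ∧ N ^ 2 ≤ N ^ 3 :=
      ⟨one_le_pow₀ hN1, pow_le_pow_right₀ hN1 (by norm_num)⟩
    have h0 : 0 ≤ N ^ 3 * ξ0 * Z := by positivity
    have b4 : (2 * ξ0 + N ^ 2 * ξ0) * Z ≤ 3 * (N ^ 3 * ξ0 * Z) := by
      have := mul_le_mul_of_nonneg_right (show 2 + N ^ 2 ≤ 3 * N ^ 3 by linarith)
        (show 0 ≤ ξ0 * Z by positivity)
      linarith
    have b5 : N * c * Z = 4 * (N ^ 3 * ξ0 * Z) := by rw [hc]; ring
    have b6 : ξ = 30 * ((m : ℝ) + 2) * (N ^ 3 * ξ0 * Z) := by rw [← hDξ, hD]; ring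
    have b7 : ((m : ℝ) + 1) * (4 * N * c) * Z = 16 * ((m : ℝ) + 1) * (N ^ 3 * ξ0 * Z) := by
      rw [hc]; ring
    linarith [norm_le_norm_add_norm_sub' (pl (A t) σ (z l) L) (pl (A t) τ Y0 L),
      norm_le_norm_add_norm_sub' (pl (W t) τ Y0 L) (x * Y0),
      mul_nonneg (Nat.cast_nonneg (α := ℝ) m) h0]
  have hD7 : 8 * N ^ 2 * ξ0 ≤ ξ := by
    have h1 : 8 * N ^ 2 ≤ D := by
      rw [hD]
      have h2 : N ^ 2 ≤ N ^ 3 := pow_le_pow_right₀ hN1 (by norm_num)
      have h3 : 30 * (1 : ℝ) * N ^ 3 * 1 ≤ 30 * ((m : ℝ) + 2) * N ^ 3 * Z := by gcongr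
      linarith [pow_nonneg (by linarith : (0 : ℝ) ≤ N) 3]
    exact (mul_le_mul_of_nonneg_right h1 hξ0p.le).trans_eq hDξ
  have hN2 : N ≤ N ^ 2 := le_self_pow₀ hN1 two_ne_zero
  have h0N : 0 ≤ N ^ 2 * ξ0 := by positivity
  refine ⟨A, hA01, fun t ht t' ht' i j => (hAA t ht t' ht' i j).trans (by linarith),
    fun t ht i s hs => ?_, fun t t' h1 h2 i => (hnest t t' h1 h2 i).trans (by linarith), hbase,
    fun J hJ l hl => ?_⟩
  · rw [norm_sub_rev]
    refine (hAcomm s (hPS s (Finset.mem_union_left _ hs))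
      (hPS _ (Finset.mem_union_right _ (Finset.mem_image.2 ⟨s, hs, rfl⟩))) t ht i).trans ?_
    linarith [mul_le_mul_of_nonneg_right hN2 hξ0p.le]
  · have hgJ : g 0 l - w 0 l ∈ J := gw_sub_mem hJ _ _ fun k hk => by
      rw [hUv 0 (by omega) k (by omega)]
      exact idealGen_le hJ (hl ⟨k, by omega⟩ hk) (hv _ (by omega) _).1
    have hAJ : A 0 l - w 0 l * w 0 l ∈ J := by
      have e : A 0 l - w 0 l * w 0 l =
          star (g 0 l - w 0 l) * g 0 l + w 0 l * (g 0 l - w 0 l) := by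
        simp only [hA, star_sub, (hw01 0 l).1, sub_mul, mul_sub]; abel
      rw [e]
      exact add_mem (hJ.mul_right _ _ (hJ.star_mem _ hgJ)) (hJ.mul_left _ _ hgJ)
    have h1 : qn J (A 0 l * z l) = qn J (w 0 l * w 0 l * z l) := qn_eq_of_sub_mem hJ (by
      rw [← sub_mul]; exact hJ.mul_right _ _ hAJ)
    have h2 := qn_le_add_norm (J := J) (z l) (w 0 l * w 0 l * z l)
    have h3 : ‖w 0 l * z l - z l‖ ≤ ξ0 := by
      rw [hwW 0 (by omega)]; exact ((hW 0 (by omega) l).2.2.2.1 _ (Finset.mem_singleton_self _)).1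
    have h4 : ‖z l - w 0 l * w 0 l * z l‖ ≤ 2 * ξ0 := by
      have e : w 0 l * w 0 l * z l - z l =
          w 0 l * (w 0 l * z l - z l) + (w 0 l * z l - z l) := by
        simp only [mul_sub, mul_assoc]; abel
      rw [norm_sub_rev, e]
      linarith [norm_add_le (w 0 l * (w 0 l * z l - z l)) (w 0 l * z l - z l),
        (norm_mul_le (w 0 l) (w 0 l * z l - z l)).trans
          (mul_le_of_le_one_left (norm_nonneg _) (hw01 0 l).2)]
    linarith [mul_le_mul_of_nonneg_right (one_le_pow₀ (n := 2) hN1) hξ0p.le]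

end Vale.Agent.P133
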