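import Vale.Agent.P133.Dim.Units

/-!
P133: ordered products of almost commuting positive contractions.
-/

namespace Vale.Agent.P133

open scoped ComplexOrder

set_option linter.unusedSectionVars false

variable {C : Type*} [NonUnitalCStarAlgebra C] [PartialOrder C] [StarOrderedRing C]

theorem qn_le_norm_of_sub {J : Submodule ℂ C} {x y : C} {e : ℝ} (h : ‖x - y‖ ≤ e) :
    qn J x ≤ qn J y + e :=
  (qn_le_add_norm x y).trans (add_le_add le_rfl h)

theorem qn_mul_le_of_norm {J : Submodule ℂ C} (hJ : IsStarIdeal J) {a : C} (ha : ‖a‖ ≤ 1) (x : C) :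
    qn J (a * x) ≤ qn J x :=
  (qn_mul_le hJ a x).trans (mul_le_of_le_one_left (qn_nonneg _) ((qn_le_norm a).trans ha))

theorem gw_sub (U : ℕ → C) (w w' : C) : ∀ j, gw U (w - w') j = gw U w j - gw U w' j
  | 0 => rfl
  | i + 1 => by rw [gw, gw, gw, gw_sub U w w' i, mul_sub]; abel

theorem qn_gw_le {U : ℕ → C} (hU : ∀ i, 0 ≤ U i ∧ ‖U i‖ ≤ 1) {J : Submodule ℂ C}
    (hJ : IsStarIdeal J) (x : C) (j : ℕ) : qn J (gw U x j) ≤ qn J x := by
  refine le_of_forall_pos_le_add fun δ hδ => ?_
  obtain ⟨a, ha, hd⟩ := exists_near (J := J) x (lt_add_of_pos_right (qn J x) hδ)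
  refine (qn_le_norm_sub (gw_mem hJ U ha j)).trans ?_
  rw [← gw_sub]
  exact (norm_gw_le hU _ j).trans hd.le

/-- A right factor commuting with the `U i` passes through `gw`. -/
theorem norm_mul_gw_sub_le {U : ℕ → C} (hU : ∀ i, 0 ≤ U i ∧ ‖U i‖ ≤ 1) {q X : C} {e : ℝ}
    (he : 0 ≤ e) : ∀ j, (∀ i < j, ‖q * U i - U i * q‖ ≤ e) →
      ‖q * gw U X j - gw U (q * X) j‖ ≤ j * e * ‖X‖
  | 0, _ => by simp [gw]
  | i + 1, h => by
      have ih := norm_mul_gw_sub_le hU (q := q) (X := X) he i fun k hk => h k (by omega)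
      set D := q * gw U X i - gw U (q * X) i with hD
      have e1 : q * gw U X (i + 1) - gw U (q * X) (i + 1) =
          (D - U i * D) - (q * U i - U i * q) * gw U X i := by
        simp only [gw, hD, sub_mul, mul_sub, mul_assoc]; abel
      rw [e1]
      have h1 := (norm_mul_le (q * U i - U i * q) (gw U X i)).trans
        (mul_le_mul (h i (by omega)) (norm_gw_le hU X i) (norm_nonneg _) he)
      have h2 := norm_sub_pos_mul_le (hU i).1 (hU i).2 D
      push_cast
      linarith [norm_sub_le (D - U i * D) ((q * U i - U i * q) * gw U X i)]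

theorem norm_gw_absorb_le {U : ℕ → C} (hU : ∀ i, 0 ≤ U i ∧ ‖U i‖ ≤ 1) {q X : C} {e : ℝ}
    (he : 0 ≤ e) (lam : ℝ) {j : ℕ} (h : ∀ i < j, ‖q * U i - U i * q‖ ≤ e) :
    ‖q * gw U X j - lam • gw U X j‖ ≤ ‖q * X - lam • X‖ + j * e * ‖X‖ := by
  have hs : ∀ k, gw U (lam • X) k = lam • gw U X k := by
    intro k
    induction k with
    | zero => rfl
    | succ k ih => rw [gw, gw, ih, mul_smul_comm, smul_sub]
  have e1 : q * gw U X j - lam • gw U X j =
      (q * gw U X j - gw U (q * X) j) + gw U (q * X - lam • X) j := by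
    rw [gw_sub, hs]; abel
  rw [e1]
  linarith [norm_add_le (q * gw U X j - gw U (q * X) j) (gw U (q * X - lam • X) j),
    norm_mul_gw_sub_le hU (q := q) (X := X) he j h, norm_gw_le hU (q * X - lam • X) j]

theorem norm_gw_fix_le {U : ℕ → C} (hU : ∀ i, 0 ≤ U i ∧ ‖U i‖ ≤ 1) {G : C} {e : ℝ} :
    ∀ j, (∀ i < j, ‖U i * G‖ ≤ e) → ‖gw U G j - G‖ ≤ j * e
  | 0, _ => by simp [gw]
  | i + 1, h => by
      have ih := norm_gw_fix_le hU (G := G) i fun k hk => h k (by omega)
      set D := gw U G i - G with hD
      have e1 : gw U G (i + 1) - G = (D - U i * D) - U i * G := by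
        simp only [gw, hD, mul_sub]; abel
      rw [e1]
      have h2 := norm_sub_pos_mul_le (hU i).1 (hU i).2 D
      push_cast
      linarith [norm_sub_le (D - U i * D) (U i * G), h i (by omega)]

theorem norm_star_gw_sub_le {U : ℕ → C} (hU : ∀ i, 0 ≤ U i ∧ ‖U i‖ ≤ 1) {X : C} :
    ∀ j {e : ℝ}, (∀ i < j, ‖U i * gw U X i - gw U X i * U i‖ ≤ e) →
      ‖star (gw U X j) - gw U X j‖ ≤ ‖star X - X‖ + j * e
  | 0, e, _ => by simp [gw]
  | i + 1, e, h => by
      have ih := norm_star_gw_sub_le hU (X := X) i fun k hk => h k (by omega)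
      set G := gw U X i with hG
      have hs : star (U i) = U i := (IsSelfAdjoint.of_nonneg (hU i).1).star_eq
      set D := star G - G with hD
      have e1 : star (gw U X (i + 1)) - gw U X (i + 1) =
          (D - U i * D) + (U i * star G - star G * U i) := by
        simp only [gw, hD, ← hG, star_sub, star_mul, hs, mul_sub]; abel
      rw [e1]
      have h1 : ‖U i * star G - star G * U i‖ ≤ e := by
        rw [norm_sub_rev, norm_comm_star hs, norm_sub_rev]; exact h i (by omega)
      have h2 := norm_sub_pos_mul_le (hU i).1 (hU i).2 D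
      push_cast
      linarith [norm_add_le (D - U i * D) (U i * star G - star G * U i)]

/-- Passing from a product to its cut by the `U i`. -/
theorem qn_le_qn_gw_add {U : ℕ → C} (hU : ∀ i, 0 ≤ U i ∧ ‖U i‖ ≤ 1) {J : Submodule ℂ C}
    (hJ : IsStarIdeal J) {e : ℝ} (he : 0 ≤ e) {X : C} :
    ∀ j, (∀ i < j, ∀ k < j, ‖U i * U k - U k * U i‖ ≤ e) →
      qn J X ≤ qn J (gw U X j) + ∑ i ∈ Finset.range j, (qn J (U i * X) + j * e * ‖X‖)
  | 0, _ => by simp [gw]
  | j + 1, h => by
      have ih := qn_le_qn_gw_add hU hJ (X := X) he j fun i hi k hk => h i (by omega) k (by omega)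
      have e1 : gw U X j = gw U X (j + 1) + U j * gw U X j := by simp only [gw]; abel
      have h1 := qn_add_le (J := J) (gw U X (j + 1)) (U j * gw U X j)
      rw [← e1] at h1
      have h2 := (qn_le_norm_of_sub (J := J)
        (norm_mul_gw_sub_le hU (q := U j) (X := X) he j fun i hi =>
          h j (by omega) i (by omega))).trans (add_le_add (qn_gw_le hU hJ _ j) le_rfl)
      have h3 : ∑ i ∈ Finset.range j, (qn J (U i * X) + (j : ℝ) * e * ‖X‖) ≤
          ∑ i ∈ Finset.range j, (qn J (U i * X) + ((j + 1 : ℕ) : ℝ) * e * ‖X‖) :=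
        Finset.sum_le_sum fun i _ => by
          push_cast
          nlinarith [mul_nonneg he (norm_nonneg X)]
      rw [Finset.sum_range_succ]
      push_cast at h3 ⊢
      nlinarith [mul_nonneg he (norm_nonneg X)]

/-- The product of the `a i` over the members of `T` in the order of the list, applied to `X`. -/
def pl {ι : Type*} [DecidableEq ι] (a : ι → C) (T : Finset ι) (X : C) : List ι → C
  | [] => X
  | i :: L => if i ∈ T then a i * pl a T X L else pl a T X L

section pl

variable {ι : Type*} [DecidableEq ι] {a : ι → C}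

theorem pl_mul (T : Finset ι) (X Y : C) : ∀ L, pl a T (X * Y) L = pl a T X L * Y
  | [] => rfl
  | i :: L => by
      simp only [pl, pl_mul T X Y L]
      split_ifs <;> simp [mul_assoc]

theorem pl_empty (X : C) : ∀ L : List ι, pl a ∅ X L = X
  | [] => rfl
  | i :: L => by simp [pl, pl_empty X L]

theorem pl_congr {T T' : Finset ι} (X : C) : ∀ {L : List ι}, (∀ i ∈ L, (i ∈ T ↔ i ∈ T')) →
    pl a T X L = pl a T' X L
  | [], _ => rfl
  | i :: L, h => by
      simp only [pl, pl_congr X fun j hj => h j (List.mem_cons_of_mem _ hj),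
        h i List.mem_cons_self]

theorem pl_smul (T : Finset ι) (lam : ℝ) (X : C) : ∀ L, pl a T (lam • X) L = lam • pl a T X L
  | [] => rfl
  | i :: L => by
      simp only [pl, pl_smul T lam X L]
      split_ifs <;> simp [mul_smul_comm]

theorem pl_sub (T : Finset ι) (X Y : C) : ∀ L, pl a T (X - Y) L = pl a T X L - pl a T Y L
  | [] => rfl
  | i :: L => by
      simp only [pl, pl_sub T X Y L]
      split_ifs <;> simp [mul_sub]

theorem norm_pl_le (ha : ∀ i, ‖a i‖ ≤ 1) (T : Finset ι) (X : C) : ∀ L, ‖pl a T X L‖ ≤ ‖X‖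
  | [] => le_rfl
  | i :: L => by
      simp only [pl]
      split_ifs
      · exact (norm_mul_le _ _).trans
          ((mul_le_of_le_one_left (norm_nonneg _) (ha i)).trans (norm_pl_le ha T X L))
      · exact norm_pl_le ha T X L

theorem pl_mem {J : Submodule ℂ C} (hJ : IsStarIdeal J) (T : Finset ι) (X : C) :
    ∀ L, (X ∈ J ∨ ∃ i ∈ L, i ∈ T ∧ a i ∈ J) → pl a T X L ∈ J
  | [], h => by
      rcases h with h | ⟨i, hi, -⟩
      · exact h
      · simp at hi
  | k :: L, h => by
      simp only [pl]
      rcases h with h | ⟨i, hi, hiT, hiJ⟩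
      · split_ifs
        · exact hJ.mul_left _ _ (pl_mem hJ T X L (Or.inl h))
        · exact pl_mem hJ T X L (Or.inl h)
      · rcases List.mem_cons.1 hi with rfl | hi
        · rw [if_pos hiT]; exact hJ.mul_right _ _ hiJ
        · split_ifs
          · exact hJ.mul_left _ _ (pl_mem hJ T X L (Or.inr ⟨i, hi, hiT, hiJ⟩))
          · exact pl_mem hJ T X L (Or.inr ⟨i, hi, hiT, hiJ⟩)

theorem norm_mul_pl_sub_le (ha : ∀ i, ‖a i‖ ≤ 1) {q X : C} {e : ℝ} (he : 0 ≤ e)
    (T : Finset ι) (hq : ∀ i ∈ T, ‖q * a i - a i * q‖ ≤ e) :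
    ∀ L, ‖q * pl a T X L - pl a T (q * X) L‖ ≤ L.length * e * ‖X‖
  | [] => by simp [pl]
  | i :: L => by
      have ih := norm_mul_pl_sub_le ha (X := X) he T hq L
      have h0 : 0 ≤ e * ‖X‖ := mul_nonneg he (norm_nonneg _)
      simp only [pl, List.length_cons]
      split_ifs with hi
      · set P := pl a T X L
        have e1 : q * (a i * P) - a i * pl a T (q * X) L =
            (q * a i - a i * q) * P + a i * (q * P - pl a T (q * X) L) := by
          simp only [sub_mul, mul_sub, mul_assoc]; abel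
        rw [e1]
        have h1 := (norm_mul_le (q * a i - a i * q) P).trans
          (mul_le_mul (hq i hi) (norm_pl_le ha T X L) (norm_nonneg _) he)
        have h2 := (norm_mul_le (a i) (q * P - pl a T (q * X) L)).trans
          (mul_le_of_le_one_left (norm_nonneg _) (ha i))
        push_cast
        linarith [norm_add_le ((q * a i - a i * q) * P) (a i * (q * P - pl a T (q * X) L))]
      · push_cast
        linarith

theorem norm_pl_insert_le (ha : ∀ i, ‖a i‖ ≤ 1) {X : C} {e : ℝ} (he : 0 ≤ e) {T : Finset ι}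
    {i : ι} (hc : ∀ j ∈ T, ‖a i * a j - a j * a i‖ ≤ e) (hiT : i ∉ T) :
    ∀ L : List ι, L.Nodup → i ∈ L →
      ‖pl a (insert i T) X L - a i * pl a T X L‖ ≤ L.length * e * ‖X‖
  | [], _, h => by simp at h
  | j :: L, hL, h => by
      rw [List.nodup_cons] at hL
      have h0 : 0 ≤ e * ‖X‖ := mul_nonneg he (norm_nonneg _)
      simp only [pl, List.length_cons]
      by_cases hji : j = i
      · subst hji
        rw [if_pos (Finset.mem_insert_self _ _), if_neg hiT,
          pl_congr (T := insert j T) (T' := T) X fun k hk => ⟨fun h => Finset.mem_of_mem_insert_of_ne h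
            fun e => hL.1 (e ▸ hk), Finset.mem_insert_of_mem⟩]
        simp only [sub_self, norm_zero]
        positivity
      · have hi : i ∈ L := (List.mem_cons.1 h).resolve_left (Ne.symm hji)
        have ih := norm_pl_insert_le ha (X := X) he hc hiT L hL.2 hi
        simp only [Finset.mem_insert, hji, false_or]
        push_cast
        split_ifs with hj
        · set P := pl a T X L
          have e1 : a j * pl a (insert i T) X L - a i * (a j * P) =
              a j * (pl a (insert i T) X L - a i * P) - (a i * a j - a j * a i) * P := by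
            simp only [sub_mul, mul_sub, mul_assoc]; abel
          rw [e1]
          have h1 := (norm_mul_le (a i * a j - a j * a i) P).trans
            (mul_le_mul (hc j hj) (norm_pl_le ha T X L) (norm_nonneg _) he)
          have h2 := (norm_mul_le (a j) (pl a (insert i T) X L - a i * P)).trans
            (mul_le_of_le_one_left (norm_nonneg _) (ha j))
          linarith [norm_sub_le (a j * (pl a (insert i T) X L - a i * P))
            ((a i * a j - a j * a i) * P)]
        · linarith

theorem norm_pl_insert_right_le (ha : ∀ i, ‖a i‖ ≤ 1) {X : C} {e : ℝ} (he : 0 ≤ e)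
    {T : Finset ι} {i : ι} (hc : ∀ j ∈ T, ‖a i * a j - a j * a i‖ ≤ e) (hiT : i ∉ T) (L : List ι)
    (hL : L.Nodup) (hi : i ∈ L) :
    ‖pl a (insert i T) X L - pl a T (a i * X) L‖ ≤ 2 * L.length * e * ‖X‖ := by
  have h1 := norm_pl_insert_le ha (X := X) he hc hiT L hL hi
  have h2 := norm_mul_pl_sub_le ha (q := a i) (X := X) he T hc L
  linarith [norm_sub_le_norm_sub_add_norm_sub (pl a (insert i T) X L) (a i * pl a T X L)
    (pl a T (a i * X) L)]

theorem norm_star_pl_sub_le (ha : ∀ i, ‖a i‖ ≤ 1) (has : ∀ i, star (a i) = a i) {X : C} {e : ℝ}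
    (T : Finset ι) : ∀ L : List ι,
      (∀ i ∈ T, ∀ L' : List ι, L'.length ≤ L.length →
        ‖a i * pl a T X L' - pl a T X L' * a i‖ ≤ e) →
      0 ≤ e → ‖star (pl a T X L) - pl a T X L‖ ≤ ‖star X - X‖ + L.length * e
  | [], _, _ => by simp [pl]
  | i :: L, h, he => by
      have ih := norm_star_pl_sub_le ha has (X := X) T L
        (fun k hk L' hL' => h k hk L' (by simp only [List.length_cons]; omega)) he
      simp only [pl, List.length_cons]
      push_cast
      split_ifs with hi
      · set P := pl a T X L with hP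
        have e1 : star (a i * P) - a i * P = (star P - P) * a i + (P * a i - a i * P) := by
          simp only [star_mul, has, sub_mul]; abel
        rw [e1]
        have h1 := (norm_mul_le (star P - P) (a i)).trans
          (mul_le_of_le_one_right (norm_nonneg _) (ha i))
        have h2 := (norm_sub_rev _ _).le.trans (h i hi L (by simp))
        linarith [norm_add_le ((star P - P) * a i) (P * a i - a i * P)]
      · linarith

theorem norm_comm_pl_le (ha : ∀ i, ‖a i‖ ≤ 1) {q X : C} {e : ℝ} (he : 0 ≤ e) (T : Finset ι)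
    (hq : ∀ i ∈ T, ‖q * a i - a i * q‖ ≤ e) (L : List ι) :
    ‖q * pl a T X L - pl a T X L * q‖ ≤ ‖q * X - X * q‖ + L.length * e * ‖X‖ := by
  have h1 := norm_mul_pl_sub_le ha (q := q) (X := X) he T hq L
  have h2 : pl a T (q * X) L - pl a T X L * q = pl a T (q * X - X * q) L := by
    rw [pl_sub, pl_mul T X q]
  have h3 := norm_pl_le ha T (q * X - X * q) L
  rw [← h2] at h3
  linarith [norm_sub_le_norm_sub_add_norm_sub (q * pl a T X L) (pl a T (q * X) L)
    (pl a T X L * q)]

/-- Multiplying by `q` a product which contains `a i`. -/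
theorem norm_pl_absorb_le (ha : ∀ i, ‖a i‖ ≤ 1) {q : C} {e Q : ℝ} (he : 0 ≤ e) (hq1 : ‖q‖ ≤ Q)
    (lam : ℝ) (hlam : |lam| ≤ Q) {T : Finset ι} {l i : ι} (hi : i ∈ insert l T)
    (hq : ∀ j ∈ insert l T, ‖q * a j - a j * q‖ ≤ e)
    (hc : ∀ j ∈ T, ‖a i * a j - a j * a i‖ ≤ e) (L : List ι) (hL : L.Nodup) (hiL : i ∈ L) :
    ‖q * pl a T (a l) L - lam • pl a T (a l) L‖ ≤
      ‖q * a i - lam • a i‖ + (2 * Q + 1) * L.length * e := by
  have hQ : 0 ≤ Q := (norm_nonneg q).trans hq1
  have hLe : 0 ≤ (L.length : ℝ) * e := by positivity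
  have hQL : 0 ≤ Q * (L.length * e) := by positivity
  by_cases hiT : i ∈ T
  · set T' := T.erase i with hT'
    have hins := norm_pl_insert_le ha (X := a l) he (T := T')
      (fun j hj => hc j (Finset.mem_of_mem_erase hj)) (Finset.notMem_erase i T) L hL hiL
    rw [hT', Finset.insert_erase hiT] at hins
    set R := pl a T' (a l) L with hR
    have hR1 : ‖R‖ ≤ 1 := (norm_pl_le ha _ _ _).trans (ha l)
    set D := pl a T (a l) L - a i * R with hD
    have hDn : ‖D‖ ≤ L.length * e :=
      hins.trans (mul_le_of_le_one_right hLe (ha l))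
    have e1 : q * pl a T (a l) L - lam • pl a T (a l) L =
        (q * D - lam • D) + (q * a i - lam • a i) * R := by
      simp only [hD, mul_sub, sub_mul, smul_sub, smul_mul_assoc, mul_assoc]; abel
    rw [e1]
    have h1 : ‖q * D - lam • D‖ ≤ 2 * Q * (L.length * e) := by
      refine (norm_sub_le _ _).trans ?_
      have h2 := (norm_mul_le q D).trans (mul_le_mul hq1 hDn (norm_nonneg _) hQ)
      have h3 : ‖lam • D‖ ≤ Q * (L.length * e) := by
        rw [norm_smul, Real.norm_eq_abs]
        exact mul_le_mul hlam hDn (norm_nonneg _) hQ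
      linarith
    have h2 := (norm_mul_le (q * a i - lam • a i) R).trans
      (mul_le_of_le_one_right (norm_nonneg _) hR1)
    linarith [norm_add_le (q * D - lam • D) ((q * a i - lam • a i) * R)]
  · have hil : i = l := (Finset.mem_insert.1 hi).resolve_right hiT
    subst hil
    have h1 := norm_mul_pl_sub_le ha (q := q) (X := a i) he T
      (fun j hj => hq j (Finset.mem_insert_of_mem hj)) L
    have h2 : pl a T (q * a i) L - lam • pl a T (a i) L = pl a T (q * a i - lam • a i) L := by
      rw [pl_sub, pl_smul]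
    have h3 := norm_pl_le ha T (q * a i - lam • a i) L
    rw [← h2] at h3
    have h4 := mul_le_of_le_one_right hLe (ha i)
    linarith [norm_sub_le_norm_sub_add_norm_sub (q * pl a T (a i) L) (pl a T (q * a i) L)
      (lam • pl a T (a i) L)]

end pl

end Vale.Agent.P133
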